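import Vale.Agent.P039.Defs

/-! Definitions for the theorem on composite graphs. -/

namespace Vale.Agent.P039

variable {V : Type*}

/-- `c` is a proper 2-colouring of `G`, and the black vertices (those with `c v = true`) are split
into the ones in `S` and the ones outside `S` in such a way that `G` remains connected when the
black vertices of either part are deleted. -/
structure Splitting (G : SimpleGraph V) (c : V → Bool) (S : Set V) : Prop where
  proper : ∀ u v, G.Adj u v → c u ≠ c v
  inside : (G.induce {v | c v = true → v ∈ S}).Connected
  outside : (G.induce {v | c v = true → v ∉ S}).Connected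

/-- For some splitting, all black vertices on the face of the dart `d` lie in the same part. -/
def Active {G : SimpleGraph V} (R : Rotation G) (d : G.Dart) : Prop :=
  ∃ (c : V → Bool) (S : Set V), Splitting G c S ∧
    ∀ d', R.facePerm.SameCycle d d' → c d'.fst = true → d'.fst ∈ S

/-- `G` is a cubic plane graph, and at least two of the three faces at `p` are active. -/
def Full (G : SimpleGraph V) (p : V) : Prop :=
  (∀ v, (G.neighborSet v).ncard = 3) ∧ ∃ R : Rotation G, R.Spherical ∧
    ∃ d d' : G.Dart, d ≠ d' ∧ d.fst = p ∧ d'.fst = p ∧ Active R d ∧ Active R d'

/-- The graph obtained from `G` by contracting the complement of `X` to a new vertex `none`. -/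
def side (G : SimpleGraph V) (X : Set V) : SimpleGraph (Option X) :=
  SimpleGraph.fromRel fun a b =>
    (∃ u v : X, a = some u ∧ b = some v ∧ G.Adj u v) ∨
      ∃ (u : X) (v : V), v ∉ X ∧ a = some u ∧ b = none ∧ G.Adj u v

/-- The smallest class of graphs which contains all cubic planar graphs with a splitting, and
contains `G` whenever exactly three edges of `G` leave a set `X`, the graph obtained by contracting
the complement of `X` is in the class, and the graph obtained by contracting `X` is full at the
contracted vertex. -/
inductive Composite : {V : Type} → SimpleGraph V → Prop
  | splitting {V : Type} (G : SimpleGraph V) (c : V → Bool) (S : Set V) :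
      (∀ v, (G.neighborSet v).ncard = 3) → IsPlane G → Splitting G c S → Composite G
  | glue {V : Type} (G : SimpleGraph V) (X : Set V) :
      cut G X = 3 → Composite (side G X) → Full (side G Xᶜ) none → Composite G

end Vale.Agent.P039
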