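import Vale.Agent.P039.Sk.HamSol

/-! The Hamiltonian cycle of a solution avoids the edges outside the 2-factor. -/

namespace Vale.Agent.P039.Sk

variable {B W V : Type} {X : Web B W} [Fintype B] [Fintype W]

omit [Fintype B] [Fintype W] in
theorem avs_not_adj (L : Lab X V) {h : V → ZMod 12} {i : Fin 3} {b : B}
    (hi : h (L.c (i + 2) b) = h (L.c (i + 1) b) - 2)
    (hne : ∀ k, k ≠ i → X.e k b ≠ X.e i b) :
    ¬ (HG L h).Adj (Sum.inl b) (Sum.inr (X.e i b)) := by
  rw [hg_adj_black]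
  rintro ⟨k, hk, he⟩
  have hki : k = i := by
    by_contra hc
    exact hne k hc (Sum.inr_injective he).symm
  subst hki
  rw [HI, hi] at hk
  have : ∀ x : ZMod 12, x - 2 ≠ x + 1 := by decide
  exact this _ hk

omit [Fintype B] [Fintype W] in
theorem avs_le (L : Lab X V) {h : V → ZMod 12} {i : Fin 3} {b : B}
    (hi : h (L.c (i + 2) b) = h (L.c (i + 1) b) - 2)
    (hne : ∀ k, k ≠ i → X.e k b ≠ X.e i b) :
    HG L h ≤ X.graph.deleteEdges {s(Sum.inl b, Sum.inr (X.e i b))} := by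
  intro x y hxy
  rw [SimpleGraph.deleteEdges_adj, Set.mem_singleton_iff]
  refine ⟨hg_le hxy, fun hc => ?_⟩
  rw [Sym2.eq_iff] at hc
  rcases hc with ⟨rfl, rfl⟩ | ⟨rfl, rfl⟩
  · exact avs_not_adj L hi hne hxy
  · exact avs_not_adj L hi hne hxy.symm

/-- the Hamiltonian cycle of a solution which does not use the edge of colour `i` at `b` -/
theorem avoid_of_sol [DecidableEq B] [DecidableEq W] (L : Lab X V) (hN : 2 ≤ Fintype.card B)
    {h : V → ZMod 12} (hs : L.Sol h) {i : Fin 3} {b : B}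
    (hi : h (L.c (i + 2) b) = h (L.c (i + 1) b) - 2)
    (hne : ∀ k, k ≠ i → X.e k b ≠ X.e i b) :
    (X.graph.deleteEdges {s(Sum.inl b, Sum.inr (X.e i b))}).IsHamiltonian := by
  intro _
  obtain ⟨k, h0, h1, h2⟩ := hi_black hs.1 b
  have hn : ((HG L h).neighborSet (Sum.inl b)).Nonempty :=
    ⟨Sum.inr (X.e (k + 1) b), hg_adj_black.2 ⟨_, h1, rfl⟩⟩
  obtain ⟨p, hp, hv⟩ :=
    (hg_isCycles hN hs).exists_cycle_toSubgraph_verts_eq_connectedComponentSupp
      (c := (HG L h).connectedComponentMk (Sum.inl b)) (v := Sum.inl b) rfl hn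
  have hall : ∀ a, a ∈ p.support := by
    intro a
    rw [← SimpleGraph.Walk.mem_verts_toSubgraph, hv]
    exact SimpleGraph.ConnectedComponent.eq.2 (hg_reachable hs.2 _ _)
  refine ⟨Sum.inl b, p.mapLe (avs_le L hi hne), ?_⟩
  rw [SimpleGraph.Walk.isHamiltonianCycle_iff_isCycle_and_support_count_tail_eq_one]
  refine ⟨hp.mapLe _, fun a => ?_⟩
  rw [SimpleGraph.Walk.support_mapLe_eq_support]
  refine hsol_count hp.support_nodup ?_
  have ha := hall a
  rw [SimpleGraph.Walk.mem_support_iff] at ha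
  rcases ha with rfl | ha
  · exact SimpleGraph.Walk.end_mem_tail_support hp.not_nil
  · exact ha

end Vale.Agent.P039.Sk
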