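import Vale.Agent.P039.St.ImC
import Vale.Agent.P039.Sp.SPos

/-! Solutions through and avoiding an edge. -/

namespace Vale.Agent.P039.Sk

variable {B W V : Type} {X : Web B W} [Fintype B] [Fintype W] [Fintype V] [DecidableEq V]

theorem E_move (L : Lab X V) (x x' y : V) (h : V → ZMod 12) :
    L.E (fun v => (if v = x' then 1 else 0) + if v = y then 1 else 0) h =
      L.E (fun v => (if v = x then 1 else 0) + if v = y then 1 else 0) h +
        (kap (h x') - kap (h x)) := by
  have key : ∀ z : V, ∑ v, (3 + ((if v = z then (1 : ZMod 4) else 0) +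
      if v = y then 1 else 0)) * kap (h v) =
      ∑ v, (3 + if v = y then (1 : ZMod 4) else 0) * kap (h v) + kap (h z) := by
    intro z
    have e2 : kap (h z) = ∑ v, if v = z then kap (h v) else 0 := by
      rw [Finset.sum_ite_eq' Finset.univ z, if_pos (Finset.mem_univ _)]
    rw [e2, ← Finset.sum_add_distrib]
    refine Finset.sum_congr rfl fun v _ => ?_
    by_cases hz : v = z
    · rw [if_pos hz, if_pos hz]
      ring
    · rw [if_neg hz, if_neg hz]
      ring
  unfold Lab.E
  rw [key x, key x']
  ring

theorem eps_one (a : ZMod 4) : eps (a + 1) = - epsi a := by revert a; decide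
theorem epsi_one (a : ZMod 4) : epsi (a + 1) = eps a := by revert a; decide

/-- if the sum is positive for marks at `y` and at one of the two faces next to the edge of colour
`i` at `b`, some solution does not use this edge -/
theorem exists_avoid (L : Lab X V) (hc : Fintype.card V = Fintype.card B + 2)
    (hN : 2 ≤ Fintype.card B) (i : Fin 3) (b : B) (x y : V)
    (hx : x = L.c (i + 1) b ∨ x = L.c (i + 2) b)
    (hpos : 0 < L.S (fun v => (if v = x then 1 else 0) + if v = y then 1 else 0)) :
    ∃ h, L.Sol h ∧ h (L.c (i + 2) b) = h (L.c (i + 1) b) - 2 := by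
  classical
  by_contra hno
  push Not at hno
  have hall : ∀ h, L.Sol h → h (L.c (i + 2) b) = h (L.c (i + 1) b) + 1 := by
    intro h hs
    rcases hs.1 i b with h1 | h1
    · exact h1
    · exact absurd h1 (hno h hs)
  set u := L.c (i + 1) b with hu
  set v := L.c (i + 2) b with hv
  have hE : ∀ h, L.Sol h → L.E (fun z => (if z = v then 1 else 0) + if z = y then 1 else 0) h =
      L.E (fun z => (if z = u then 1 else 0) + if z = y then 1 else 0) h + 1 := by
    intro h hs
    rw [E_move L u v y h, hall h hs, map_add, map_one]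
    ring
  have hSv : L.S (fun z => (if z = v then 1 else 0) + if z = y then 1 else 0) =
      - L.Si (fun z => (if z = u then 1 else 0) + if z = y then 1 else 0) := by
    unfold Lab.S Lab.Si
    rw [← Finset.sum_neg_distrib]
    refine Finset.sum_congr rfl fun h _ => ?_
    by_cases hs : L.Sol h
    · rw [if_pos hs, if_pos hs, hE h hs, eps_one]
    · rw [if_neg hs, if_neg hs, neg_zero]
  have hSu : L.Si (fun z => (if z = v then 1 else 0) + if z = y then 1 else 0) =
      L.S (fun z => (if z = u then 1 else 0) + if z = y then 1 else 0) := by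
    unfold Lab.S Lab.Si
    refine Finset.sum_congr rfl fun h _ => ?_
    by_cases hs : L.Sol h
    · rw [if_pos hs, if_pos hs, hE h hs, epsi_one]
    · rw [if_neg hs, if_neg hs]
  rw [Si_zero L hc hN, neg_zero] at hSv
  rw [Si_zero L hc hN] at hSu
  rcases hx with rfl | rfl
  · rw [← hSu] at hpos
    exact lt_irrefl _ hpos
  · rw [hSv] at hpos
    exact lt_irrefl _ hpos

/-- the other monochromatic face -/
theorem exists_other_mono (L : Lab X V) (hc : Fintype.card V = Fintype.card B + 2)
    (hN : 2 ≤ Fintype.card B) {col : B → Bool} (hs : X.Split col) {x : V} (_hx : L.Mono col x) :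
    ∃ y, y ≠ x ∧ L.Mono col y := by
  obtain ⟨y, z, hyz, hy, hz⟩ := exists_mono L hc hN hs
  by_cases h : y = x
  · exact ⟨z, fun h' => hyz (h.trans h'.symm), hz⟩
  · exact ⟨y, h, hy⟩

/-- every edge of a monochromatic face is avoided by some solution -/
theorem exists_avoid_of_mono (L : Lab X V) (hc : Fintype.card V = Fintype.card B + 2)
    (hN : 2 ≤ Fintype.card B) {col : B → Bool} (hs : X.Split col) {x : V} (hx : L.Mono col x)
    (i : Fin 3) (b : B) (hxi : x = L.c (i + 1) b ∨ x = L.c (i + 2) b) :
    ∃ h, L.Sol h ∧ h (L.c (i + 2) b) = h (L.c (i + 1) b) - 2 := by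
  obtain ⟨y, hy, hmy⟩ := exists_other_mono L hc hN hs hx
  exact exists_avoid L hc hN i b x y hxi (S_pos_of_split L hc hN hs hy.symm hx hmy)

end Vale.Agent.P039.Sk
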