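import Vale.Agent.P039.St.Defs
import Vale.Agent.P039.St.Edge
import Vale.Agent.P039.St.AvoidSol
import Vale.Agent.P039.Sp.Graph

/-! Hamiltonian cycles avoiding an edge of an active face. -/

namespace Vale.Agent.P039

open Vale.Agent.P039.Sk

variable {V : Type*}

/-- a graph with a splitting is connected -/
theorem Splitting.connected {G : SimpleGraph V} (hcub : ∀ v, (G.neighborSet v).ncard = 3)
    {c : V → Bool} {S : Set V} (h : Splitting G c S) :
    G.Connected ∧ ∃ w, c w = false := by
  obtain ⟨w₀, hw₀⟩ : ∃ w, c w = false := by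
    obtain ⟨v⟩ := h.inside.nonempty
    rcases Bool.eq_false_or_eq_true (c v.1) with h1 | h1
    · have hne : (G.neighborSet v.1).Nonempty := by
        apply Set.nonempty_of_ncard_ne_zero
        rw [hcub]; decide
      obtain ⟨u, hu⟩ := hne
      have h' := h.proper _ _ hu
      refine ⟨u, ?_⟩
      rcases Bool.eq_false_or_eq_true (c u) with h'' | h''
      · exact absurd (h1.trans h''.symm) h'
      · exact h''
    · exact ⟨_, h1⟩
  refine ⟨?_, w₀, hw₀⟩
  have : Nonempty V := ⟨w₀⟩
  have hr : ∀ u, G.Reachable u w₀ := by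
    intro u
    by_cases hu : c u = true → u ∈ S
    · have h := h.inside.preconnected ⟨u, hu⟩
        ⟨w₀, fun h => absurd (hw₀.symm.trans h) (by decide)⟩
      exact h.map (SimpleGraph.Embedding.induce _).toHom
    · have hu' : u ∉ S := fun h => hu (fun _ => h)
      have h := h.outside.preconnected ⟨u, fun _ => hu'⟩
        ⟨w₀, fun h => absurd (hw₀.symm.trans h) (by decide)⟩
      exact h.map (SimpleGraph.Embedding.induce _).toHom
  exact ⟨fun u v => (hr u).trans (hr v).symm⟩

/-- every edge of an active face is avoided by a Hamiltonian cycle -/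
theorem avoid_of_active [Fintype V] [DecidableEq V] (G : SimpleGraph V)
    (hcub : ∀ v, (G.neighborSet v).ncard = 3) (R : Rotation G) (hR : R.Spherical)
    (d d' : G.Dart) (hd : Active R d) (h : R.facePerm.SameCycle d d') :
    (G.deleteEdges {s(d'.fst, d'.snd)}).IsHamiltonian := by
  classical
  obtain ⟨c, S, hs, hmono⟩ := hd
  obtain ⟨hconn, w₀, hw₀⟩ := hs.connected hcub
  obtain ⟨P⟩ := exists_pot G hcub R hR hconn c hs.proper
  let EB := (Fintype.equivFin {v // c v = true}).symm
  let EW := (Fintype.equivFin {v // ¬ c v = true}).symm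
  let EF := Fintype.equivFin R.Face
  have hcard : Fintype.card (Fin (Fintype.card R.Face)) =
      Fintype.card (Fin (Fintype.card {v // c v = true})) + 2 := by
    rw [Fintype.card_fin, Fintype.card_fin]
    have h := hR
    unfold Rotation.Spherical at h
    rw [Nat.card_eq_fintype_card, Nat.card_eq_fintype_card, Nat.card_eq_fintype_card,
      ← card_bdart G c hs.proper, Fintype.card_congr P.bdEquiv, Fintype.card_prod,
      Fintype.card_fin] at h
    have h2 : Fintype.card {v // c v = true} = Fintype.card {v // ¬ c v = true} :=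
      Fintype.card_congr (P.eqv 0)
    have h3 : Fintype.card V = Fintype.card {v // c v = true} +
        Fintype.card {v // ¬ c v = true} := by
      rw [← Fintype.card_sum]
      exact (Fintype.card_congr (Equiv.sumCompl (fun v => c v = true))).symm
    omega
  set X := P.web EB EW with hX
  set L := P.lab EB EW EF with hL
  set φ := P.iso EB EW with hφ
  have hb : ∀ b, c (φ (Sum.inl b)) = true := fun b => (EB b).2
  have hw : ∀ w, c (φ (Sum.inr w)) = false := by
    intro w
    have h1 : φ (Sum.inr w) = (EW w).1 := rfl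
    have h2 := (EW w).2
    rw [h1]
    simpa using h2
  have hsp : X.Split (fun b => decide (φ (Sum.inl b) ∈ S)) := by
    refine ⟨?_, ?_⟩
    · exact wconn_of φ hw _ true S (fun b h => by simpa using h) hb hs.inside
    · exact wconn_of φ hw _ false {v | v ∉ S} (fun b h => by simpa using h) hb hs.outside
  have hN : 2 ≤ Fintype.card (Fin (Fintype.card {v // c v = true})) := by
    rw [Fintype.card_fin]
    have h3 : 3 ≤ Fintype.card {v // c v = true} := by
      rw [← hcub w₀, ← Nat.card_eq_fintype_card]
      refine Nat.card_le_card_of_injective (α := G.neighborSet w₀)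
        (fun u => ⟨u.1, ?_⟩) ?_
      · have := hs.proper _ _ u.2
        rcases Bool.eq_false_or_eq_true (c u.1) with h' | h'
        · exact h'
        · exact absurd (hw₀.trans h'.symm) this
      · intro a b hab
        exact Subtype.ext (congrArg (fun z => z.1) hab)
    omega
  have hm : L.Mono (fun b => decide (φ (Sum.inl b) ∈ S)) (EF (R.faceOf d)) := by
    have key : ∀ k b, L.c k b = EF (R.faceOf d) → φ (Sum.inl b) ∈ S := by
      intro k b hk
      have h1 : P.cf k (EB b).1 = R.faceOf d := EF.injective hk
      have h2 : R.facePerm.SameCycle d (P.δ (EB b).1 (k + 2)) := Quotient.exact h1.symm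
      have h3 := hmono _ h2 (by rw [P.δ_fst]; exact (EB b).2)
      rw [P.δ_fst] at h3
      exact h3
    intro k b b' h1 h2
    show decide _ = decide _
    rw [decide_eq_true (key k b h1), decide_eq_true (key k b' h2)]
  have hface : R.faceOf d = R.faceOf d' := Quotient.sound h
  -- the edge as seen from its black end
  have main : ∀ (b : Fin (Fintype.card {v // c v = true})) (i : Fin 3),
      EF (R.faceOf d) = L.c (i + 1) b ∨ EF (R.faceOf d) = L.c (i + 2) b →
      (G.deleteEdges {s((EB b).1, P.nb (EB b).1 i)}).IsHamiltonian := by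
    intro b i hbi
    obtain ⟨h, hsol, hh⟩ := exists_avoid_of_mono L hcard hN hsp hm i b hbi
    have hne : ∀ k, k ≠ i → X.e k b ≠ X.e i b := by
      intro k hk he
      rw [P.web_e_iff EB EW] at he
      apply hk
      have h1 : P.δ (EB b).1 k = P.δ (EB b).1 i := by
        apply SimpleGraph.Dart.ext
        exact Prod.ext ((P.δ_fst _ _).trans (P.δ_fst _ _).symm) he
      rw [← P.γ_δ (EB b).1 k, h1, P.γ_δ]
    have hH := avoid_of_sol L hN hsol hh hne
    have hend : φ (Sum.inr (X.e i b)) = P.nb (EB b).1 i := P.web_e EB EW i b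
    let ψ : (X.graph.deleteEdges {s(Sum.inl b, Sum.inr (X.e i b))}) →g
        (G.deleteEdges {s((EB b).1, P.nb (EB b).1 i)}) :=
      ⟨φ, by
        intro x y hxy
        rw [SimpleGraph.deleteEdges_adj] at hxy ⊢
        refine ⟨φ.map_adj_iff.2 hxy.1, fun hmem => hxy.2 ?_⟩
        rw [Set.mem_singleton_iff] at hmem ⊢
        have h1 : s((EB b).1, P.nb (EB b).1 i) =
            Sym2.map φ s(Sum.inl b, Sum.inr (X.e i b)) := by
          rw [Sym2.map_mk, hend]
          rfl
        rw [h1, ← Sym2.map_mk] at hmem
        exact Sym2.map.injective φ.injective hmem⟩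
    intro hV
    have hcV : Fintype.card (Fin (Fintype.card {v // c v = true}) ⊕
        Fin (Fintype.card {v // ¬ c v = true})) ≠ 1 := by
      rw [Fintype.card_congr φ.toEquiv]; exact hV
    obtain ⟨a, p, hp⟩ := hH hcV
    exact ⟨φ a, p.map ψ, hp.map (f := ψ) φ.bijective⟩
  rcases Bool.eq_false_or_eq_true (c d'.fst) with hc | hc
  · -- black
    have h1 := main (EB.symm ⟨d'.fst, hc⟩) (P.γ d') ?_
    · rw [Equiv.apply_symm_apply] at h1
      have h2 : P.nb d'.fst (P.γ d') = d'.snd := by
        have := P.eq_δ (d := d') rfl rfl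
        unfold Pot.nb
        rw [← this]
      rw [h2] at h1
      exact h1
    · left
      show _ = EF (P.cf (P.γ d' + 1) (EB (EB.symm ⟨d'.fst, hc⟩)).1)
      rw [Equiv.apply_symm_apply, hface]
      unfold Pot.cf
      rw [f12, ← P.eq_δ (d := d') rfl rfl]
  · -- white
    have hc' : c d'.snd = true := P.flip' hc
    have h1 := main (EB.symm ⟨d'.snd, hc'⟩) (P.γ d') ?_
    · rw [Equiv.apply_symm_apply] at h1
      have h2 : P.nb d'.snd (P.γ d') = d'.fst := by
        have := P.eq_δ (d := d'.symm) (v := d'.snd) (i := P.γ d') rfl (P.γ_symm d')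
        unfold Pot.nb
        rw [← this]
        rfl
      rw [h2, Sym2.eq_swap] at h1
      exact h1
    · right
      show _ = EF (P.cf (P.γ d' + 2) (EB (EB.symm ⟨d'.snd, hc'⟩)).1)
      rw [Equiv.apply_symm_apply, hface, ← R.faceOf_facePerm d']
      unfold Pot.cf
      congr 2
      apply P.eq_δ
      · exact R.fst_facePerm d'
      · rw [R.facePerm_apply, P.γ_rot_black (d := d'.symm) hc', P.γ_symm, f22]

theorem avoid_of_full [Fintype V] [DecidableEq V] (G : SimpleGraph V) (p u : V)
    (h : Full G p) (hu : G.Adj p u) : (G.deleteEdges {s(p, u)}).IsHamiltonian := by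
  classical
  obtain ⟨hcub, R, hR, d, d', hdd, hd, hd', ha, ha'⟩ := h
  obtain ⟨c, S, hs, -⟩ := id ha
  obtain ⟨hconn, -⟩ := hs.connected hcub
  obtain ⟨P⟩ := exists_pot G hcub R hR hconn c hs.proper
  let e : G.Dart := ⟨(p, u), hu⟩
  -- the edge before an active dart
  have prev : ∀ d : G.Dart, Active R d → R.rot e = d →
      (G.deleteEdges {s(p, u)}).IsHamiltonian := by
    intro d ha he
    have h1 := avoid_of_active G hcub R hR d e.symm ha (by
      have h2 : R.facePerm e.symm = d := by
        rw [R.facePerm_apply, SimpleGraph.Dart.symm_symm]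
        exact he
      rw [← h2]
      exact (Equiv.Perm.sameCycle_apply_left.2 (Equiv.Perm.SameCycle.refl _ _)))
    have h3 : s(e.symm.fst, e.symm.snd) = s(p, u) := Sym2.eq_swap
    rw [h3] at h1
    exact h1
  have self : ∀ d : G.Dart, Active R d → e = d → (G.deleteEdges {s(p, u)}).IsHamiltonian := by
    intro d ha he
    have h1 := avoid_of_active G hcub R hR d e ha (by rw [he])
    exact h1
  have he : e.fst = p := rfl
  -- every dart at `p` is `e`, `rot e` or `rot (rot e)`
  have hall : ∀ a : G.Dart, a.fst = p → a = e ∨ a = R.rot e ∨ a = R.rot (R.rot e) := by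
    intro a ha
    have r1 : (R.rot e).fst = p := (R.fst_rot e).trans he
    have r2 : (R.rot (R.rot e)).fst = p := (R.fst_rot _).trans r1
    rcases Bool.eq_false_or_eq_true (c p) with hc | hc
    · have g1 := P.γ_rot_black (d := e) hc
      have g2 := P.γ_rot_black (d := R.rot e) (by rw [r1]; exact hc)
      have : P.γ a = P.γ e ∨ P.γ a = P.γ e + 1 ∨ P.γ a = P.γ e + 1 + 1 := by
        generalize P.γ a = x
        generalize P.γ e = y
        revert x y; decide
      rcases this with h' | h' | h'
      · exact Or.inl (P.dart_inj (ha.trans he.symm) h')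
      · exact Or.inr (Or.inl (P.dart_inj (ha.trans r1.symm) (h'.trans g1.symm)))
      · exact Or.inr (Or.inr (P.dart_inj (ha.trans r2.symm) (by rw [g2, g1, h'])))
    · have g1 := P.γ_rot_white (d := e) hc
      have g2 := P.γ_rot_white (d := R.rot e) (by rw [r1]; exact hc)
      have : P.γ a = P.γ e ∨ P.γ a = P.γ e + 2 ∨ P.γ a = P.γ e + 2 + 2 := by
        generalize P.γ a = x
        generalize P.γ e = y
        revert x y; decide
      rcases this with h' | h' | h'
      · exact Or.inl (P.dart_inj (ha.trans he.symm) h')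
      · exact Or.inr (Or.inl (P.dart_inj (ha.trans r1.symm) (h'.trans g1.symm)))
      · exact Or.inr (Or.inr (P.dart_inj (ha.trans r2.symm) (by rw [g2, g1, h'])))
  rcases hall d hd with h1 | h1 | h1
  · exact self d ha h1.symm
  · exact prev d ha h1.symm
  · rcases hall d' hd' with h2 | h2 | h2
    · exact self d' ha' h2.symm
    · exact prev d' ha' h2.symm
    · exact absurd (h1.trans h2.symm) hdd

end Vale.Agent.P039
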