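import Vale.Agent.P039.St.GlueA

/-! Gluing Hamiltonian cycles along a cut with three edges. -/

namespace Vale.Agent.P039

variable {V : Type*}

/-- the third element of a set with three elements -/
theorem StGlue.third {A : Set V} (hA : A.ncard = 3) {a₁ a₂ : V} (h1 : a₁ ∈ A) (h2 : a₂ ∈ A)
    (h : a₁ ≠ a₂) : ∃ a₃ ∈ A, ∀ w ∈ A, w ≠ a₃ → w = a₁ ∨ w = a₂ := by
  obtain ⟨x, y, z, hxy, hxz, hyz, rfl⟩ := Set.ncard_eq_three.1 hA
  simp only [Set.mem_insert_iff, Set.mem_singleton_iff] at h1 h2 ⊢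
  rcases h1 with rfl | rfl | rfl <;> rcases h2 with rfl | rfl | rfl
  · exact absurd rfl h
  · exact ⟨z, by simp, by tauto⟩
  · exact ⟨y, by simp, by tauto⟩
  · exact ⟨z, by simp, by tauto⟩
  · exact absurd rfl h
  · exact ⟨x, by simp, by tauto⟩
  · exact ⟨y, by simp, by tauto⟩
  · exact ⟨x, by simp, by tauto⟩
  · exact absurd rfl h

/-- Exactly three edges leave `X`; both contractions have three neighbours at the new vertex. If
the contraction of the complement is Hamiltonian and the contraction of `X` has, for each edge at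
the new vertex, a Hamiltonian cycle avoiding this edge, then `G` is Hamiltonian. -/
theorem ham_glue [Fintype V] [DecidableEq V] (G : SimpleGraph V) (X : Set V)
    (hcut : cut G X = 3)
    (h1 : ((side G X).neighborSet none).ncard = 3)
    (h2 : ((side G Xᶜ).neighborSet none).ncard = 3)
    [Fintype (Option X)] [DecidableEq (Option X)]
    [Fintype (Option (Xᶜ : Set V))] [DecidableEq (Option (Xᶜ : Set V))]
    (hX : (side G X).IsHamiltonian)
    (hY : ∀ u, (side G Xᶜ).Adj none u →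
      ((side G Xᶜ).deleteEdges {s(none, u)}).IsHamiltonian) : G.IsHamiltonian := by
  have hinj := StGlue.fst_injOn hcut h1
  have hA : (StGlue.ends G X).ncard = 3 := by rw [StGlue.ncard_ends, h1]
  have n1 : Nontrivial (Option X) := by
    have hne : ((side G X).neighborSet none).Nonempty := by
      apply Set.nonempty_of_ncard_ne_zero; omega
    obtain ⟨x, hx⟩ := hne
    exact ⟨none, x, (SimpleGraph.mem_neighborSet _ _ _ |>.1 hx).ne⟩
  have n2 : Nontrivial (Option (Xᶜ : Set V)) := by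
    have hne : ((side G Xᶜ).neighborSet none).Nonempty := by
      apply Set.nonempty_of_ncard_ne_zero; omega
    obtain ⟨x, hx⟩ := hne
    exact ⟨none, x, (SimpleGraph.mem_neighborSet _ _ _ |>.1 hx).ne⟩
  obtain ⟨a₁, a₂, L, hL, hLn, hLX, hL1, hL2, ha, had1, had2⟩ := StGlue.list_of_ham le_rfl hX
  rw [StGlue.side_none_some] at had1 had2
  obtain ⟨a₃, ha₃, hthird⟩ := StGlue.third hA (a₁ := a₁) (a₂ := a₂) ⟨a₁.2, had1⟩ ⟨a₂.2, had2⟩
    (fun e => ha (Subtype.ext e))
  obtain ⟨ha₃X, b₃, hb₃, hab₃⟩ := ha₃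
  have hadj : (side G Xᶜ).Adj none (some ⟨b₃, hb₃⟩) := by
    rw [StGlue.side_none_some]
    exact ⟨a₃, fun h => h ha₃X, hab₃.symm⟩
  obtain ⟨c, c', M, hM, hMn, hMX, hM1, hM2, hcc, hc, hc'⟩ :=
    StGlue.list_of_ham (SimpleGraph.deleteEdges_le _) (hY _ hadj)
  rw [SimpleGraph.deleteEdges_adj] at hc hc'
  have hMX' : ∀ w, w ∈ M ↔ w ∉ X := hMX
  -- the neighbours of `c` and `c'` in `X`
  have key : ∀ u : (Xᶜ : Set V), ((side G Xᶜ).Adj none (some u) ∧
      s(none, some u) ∉ ({s(none, some ⟨b₃, hb₃⟩)} : Set (Sym2 (Option (Xᶜ : Set V))))) →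
      ∃ p, p ∈ X ∧ G.Adj p u ∧ (p = a₁ ∨ p = a₂) := by
    rintro u ⟨hu1, hu2⟩
    rw [StGlue.side_none_some] at hu1
    obtain ⟨p, hp, hup⟩ := hu1
    have hpX : p ∈ X := not_not.1 hp
    refine ⟨p, hpX, hup.symm, hthird p ⟨hpX, u, u.2, hup.symm⟩ ?_⟩
    rintro rfl
    apply hu2
    have h3 := @hinj (p, (u : V)) ⟨hup.symm, hpX, u.2⟩ (p, b₃) ⟨hab₃, hpX, hb₃⟩ rfl
    have h4 : (u : V) = b₃ := congrArg Prod.snd h3
    have h5 : u = ⟨b₃, hb₃⟩ := Subtype.ext h4
    rw [h5]; rfl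
  obtain ⟨p, hpX, hpc, hp⟩ := key c hc
  obtain ⟨p', hpX', hpc', hp'⟩ := key c' hc'
  have hpp : p ≠ p' := by
    rintro rfl
    have h3 := @hinj (p, (c : V)) ⟨hpc, hpX, c.2⟩ (p, (c' : V)) ⟨hpc', hpX, c'.2⟩ rfl
    exact hcc (Subtype.ext (congrArg Prod.snd h3))
  have haV : (a₁ : V) ≠ a₂ := fun e => ha (Subtype.ext e)
  rcases hp with rfl | rfl
  · have hp2 : p' = a₂ := hp'.resolve_left (fun h => hpp h.symm)
    subst hp2
    refine StGlue.ham_of_two L M.reverse a₁ a₂ c c' hL ?_ hLn (List.nodup_reverse.2 hMn) hLX ?_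
      hL1 hL2 ?_ ?_ haV hpc hpc'
    · rw [List.isChain_reverse]
      exact hM.imp fun _ _ h => h.symm
    · intro w; rw [List.mem_reverse]; exact hMX' w
    · rw [List.head?_reverse]; exact hM2
    · rw [List.getLast?_reverse]; exact hM1
  · have hp2 : p' = a₁ := hp'.resolve_right (fun h => hpp h.symm)
    subst hp2
    exact StGlue.ham_of_two L M a₁ a₂ c' c hL hM hLn hMn hLX hMX' hL1 hL2 hM1 hM2 haV hpc' hpc

/-- if both contractions are cubic, the graph is cubic -/
theorem cubic_of_glue [Finite V] (G : SimpleGraph V) (X : Set V) (hcut : cut G X = 3)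
    (h1 : ∀ v, ((side G X).neighborSet v).ncard = 3)
    (h2 : ∀ v, ((side G Xᶜ).neighborSet v).ncard = 3) (v : V) :
    (G.neighborSet v).ncard = 3 := by
  by_cases hv : v ∈ X
  · have := StGlue.ncard_neighborSet (StGlue.fst_injOn hcut (h1 none)) ⟨v, hv⟩
    rw [h1] at this
    exact this
  · have hcut' : cut G Xᶜ = 3 := by rw [StGlue.cut_compl, hcut]
    have := StGlue.ncard_neighborSet (StGlue.fst_injOn hcut' (h2 none)) ⟨v, hv⟩
    rw [h2] at this
    exact this

end Vale.Agent.P039
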