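import Vale.Agent.P039.St.Avoid
import Vale.Agent.P039.St.Glue

/-! Composite graphs are Hamiltonian. -/

namespace Vale.Agent.P039

theorem composite_aux {V : Type} {G : SimpleGraph V} (h : Composite G) : Finite V →
    (∀ v, (G.neighborSet v).ncard = 3) ∧
      ∀ [Fintype V] [DecidableEq V], G.IsHamiltonian := by
  induction h with
  | splitting G c S hcub hpl hs =>
    intro _
    refine ⟨hcub, ?_⟩
    intro _ _
    exact Sk.ham_of_splitting G hcub hpl c hs.proper S hs.inside hs.outside
  | glue G X hcut hc hfull ih =>
    intro hfin
    obtain ⟨h1, h2⟩ := ih inferInstance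
    refine ⟨cubic_of_glue G X hcut h1 hfull.1, ?_⟩
    intro _ _
    classical
    exact ham_glue G X hcut (h1 none) (hfull.1 none) h2 fun u hu => avoid_of_full _ _ _ hfull hu

theorem ham_of_composite {V : Type} [Fintype V] [DecidableEq V] (G : SimpleGraph V)
    (h : Composite G) : G.IsHamiltonian :=
  (composite_aux h inferInstance).2

end Vale.Agent.P039
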