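import Vale.Agent.P039.St.Defs

/-! Auxiliary lemmas for the gluing of Hamiltonian cycles along a cut with three edges. -/

namespace Vale.Agent.P039

namespace StGlue

variable {V : Type*}

theorem side_some_some {G : SimpleGraph V} {X : Set V} (u v : X) :
    (side G X).Adj (some u) (some v) ↔ G.Adj u v := by
  unfold side
  rw [SimpleGraph.fromRel_adj]
  constructor
  · rintro ⟨_, (⟨a, b, ha, hb, hab⟩ | ⟨a, b, _, _, hb, _⟩) | (⟨a, b, ha, hb, hab⟩ |
      ⟨a, b, _, _, hb, _⟩)⟩
    · rw [Option.some.injEq] at ha hb; rw [ha, hb]; exact hab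
    · simp at hb
    · rw [Option.some.injEq] at ha hb; rw [ha, hb]; exact hab.symm
    · simp at hb
  · intro h
    refine ⟨?_, Or.inl (Or.inl ⟨u, v, rfl, rfl, h⟩)⟩
    intro e
    rw [Option.some.injEq] at e
    rw [e] at h
    exact G.loopless.irrefl _ h

theorem side_none_some {G : SimpleGraph V} {X : Set V} (u : X) :
    (side G X).Adj none (some u) ↔ ∃ b, b ∉ X ∧ G.Adj u b := by
  unfold side
  rw [SimpleGraph.fromRel_adj]
  constructor
  · rintro ⟨_, (⟨a, b, ha, hb, hab⟩ | ⟨a, b, _, ha, hb, _⟩) | (⟨a, b, ha, hb, hab⟩ |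
      ⟨a, b, hb, ha, _, hab⟩)⟩
    · simp at ha
    · simp at ha
    · simp at hb
    · rw [Option.some.injEq] at ha; rw [ha]; exact ⟨b, hb, hab⟩
  · rintro ⟨b, hb, h⟩
    exact ⟨by simp, Or.inr (Or.inr ⟨u, b, hb, rfl, rfl, h⟩)⟩

/-- The ends inside `X` of the edges which leave `X`. -/
def ends (G : SimpleGraph V) (X : Set V) : Set V := {a | a ∈ X ∧ ∃ b, b ∉ X ∧ G.Adj a b}

theorem neighborSet_none (G : SimpleGraph V) (X : Set V) :
    (side G X).neighborSet none = some '' ((Subtype.val : X → V) ⁻¹' ends G X) := by
  ext x
  cases x with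
  | none => simp
  | some u =>
    rw [SimpleGraph.mem_neighborSet, side_none_some]
    simp [ends]

theorem ncard_ends (G : SimpleGraph V) (X : Set V) :
    (ends G X).ncard = ((side G X).neighborSet none).ncard := by
  rw [neighborSet_none, Set.ncard_image_of_injective _ (Option.some_injective _)]
  rw [← Set.ncard_image_of_injective _ Subtype.val_injective]
  congr 1
  ext a
  simp only [Set.mem_image, Set.mem_preimage, Subtype.exists, exists_and_left, exists_prop,
    exists_eq_right_right]
  constructor
  · intro h; exact ⟨h, h.1⟩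
  · intro h; exact h.1

/-- the pairs counted by `cut` -/
def cutSet (G : SimpleGraph V) (X : Set V) : Set (V × V) :=
  {p : V × V | G.Adj p.1 p.2 ∧ p.1 ∈ X ∧ p.2 ∉ X}

theorem fst_image (G : SimpleGraph V) (X : Set V) :
    Prod.fst '' cutSet G X = ends G X := by
  ext a
  constructor
  · rintro ⟨p, hp, rfl⟩
    exact ⟨hp.2.1, p.2, hp.2.2, hp.1⟩
  · rintro ⟨ha, b, hb, hab⟩
    exact ⟨(a, b), ⟨hab, ha, hb⟩, rfl⟩

theorem snd_image (G : SimpleGraph V) (X : Set V) :
    Prod.snd '' cutSet G X = ends G Xᶜ := by
  ext b
  constructor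
  · rintro ⟨p, hp, rfl⟩
    exact ⟨hp.2.2, p.1, fun h => h hp.2.1, hp.1.symm⟩
  · rintro ⟨hb, a, ha, hab⟩
    exact ⟨(a, b), ⟨hab.symm, not_not.1 ha, hb⟩, rfl⟩

variable [Finite V] {G : SimpleGraph V} {X : Set V}

theorem fst_injOn (hcut : cut G X = 3) (h1 : ((side G X).neighborSet none).ncard = 3) :
    Set.InjOn Prod.fst (cutSet G X) := by
  refine Set.injOn_of_ncard_image_eq ?_ (Set.toFinite _)
  rw [fst_image, ncard_ends, h1]
  exact hcut.symm

theorem snd_injOn (hcut : cut G X = 3) (h2 : ((side G Xᶜ).neighborSet none).ncard = 3) :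
    Set.InjOn Prod.snd (cutSet G X) := by
  refine Set.injOn_of_ncard_image_eq ?_ (Set.toFinite _)
  rw [snd_image, ncard_ends, h2]
  exact hcut.symm

omit [Finite V] in
theorem cut_compl (G : SimpleGraph V) (X : Set V) : cut G Xᶜ = cut G X := by
  have : {p : V × V | G.Adj p.1 p.2 ∧ p.1 ∈ Xᶜ ∧ p.2 ∉ Xᶜ} =
      Prod.swap '' {p : V × V | G.Adj p.1 p.2 ∧ p.1 ∈ X ∧ p.2 ∉ X} := by
    ext p
    constructor
    · rintro ⟨h, h1, h2⟩
      exact ⟨p.swap, ⟨h.symm, not_not.1 h2, h1⟩, Prod.swap_swap p⟩
    · rintro ⟨q, ⟨h, h1, h2⟩, rfl⟩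
      exact ⟨h.symm, h2, fun h3 => h3 h1⟩
  unfold cut
  rw [this, Set.ncard_image_of_injective _ Prod.swap_injective]

omit [Finite V] in
theorem ncard_neighborSet (hinj : Set.InjOn Prod.fst (cutSet G X)) (v : X) :
    (G.neighborSet v).ncard = ((side G X).neighborSet (some v)).ncard := by
  classical
  let φ : V → Option X := fun w => if h : w ∈ X then some ⟨w, h⟩ else none
  have hφ : φ '' (G.neighborSet v) = (side G X).neighborSet (some v) := by
    ext x
    constructor
    · rintro ⟨w, hw, rfl⟩
      rw [SimpleGraph.mem_neighborSet] at hw ⊢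
      by_cases h : w ∈ X
      · simp only [φ, h, dif_pos]
        rw [side_some_some]; exact hw
      · simp only [φ, h, dif_neg, not_false_eq_true]
        rw [SimpleGraph.adj_comm, side_none_some]
        exact ⟨w, h, hw⟩
    · intro hx
      rw [SimpleGraph.mem_neighborSet] at hx
      cases x with
      | none =>
        rw [SimpleGraph.adj_comm, side_none_some] at hx
        obtain ⟨b, hb, hvb⟩ := hx
        exact ⟨b, hvb, by simp [φ, hb]⟩
      | some w =>
        rw [side_some_some] at hx
        exact ⟨w, hx, by simp [φ]⟩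
  rw [← hφ]
  refine (Set.InjOn.ncard_image ?_).symm
  intro a ha b hb hab
  rw [SimpleGraph.mem_neighborSet] at ha hb
  by_cases h1 : a ∈ X <;> by_cases h2 : b ∈ X
  · simpa [φ, h1, h2] using hab
  · simp [φ, h1, h2] at hab
  · simp [φ, h1, h2] at hab
  · have := @hinj ((v : V), a) ⟨ha, v.2, h1⟩ ((v : V), b) ⟨hb, v.2, h2⟩ rfl
    exact congrArg Prod.snd this

omit [Finite V] in
/-- A Hamiltonian cycle cut open at a vertex. -/
theorem path_of_ham {W : Type*} [Fintype W] [DecidableEq W] {H : SimpleGraph W}
    (h : H.IsHamiltonian) [Nontrivial W] (v : W) :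
    ∃ (x y : W) (q : H.Walk y x), q.IsPath ∧ H.Adj v y ∧ H.Adj v x ∧ y ≠ x ∧ v ∉ q.support ∧
      ∀ w, w ≠ v → w ∈ q.support := by
  obtain ⟨p, hp⟩ := h.exists_isHamiltonianCycle v
  have hlen := hp.isCycle.three_le_length
  have hmem := hp.mem_support
  have hc := hp.isCycle
  clear hp
  cases p with
  | nil => simp at hlen
  | @cons _ x _ hx q =>
    rw [SimpleGraph.Walk.cons_isCycle_iff] at hc
    have hq : q.reverse.IsPath := hc.1.reverse
    have hql : 2 ≤ q.reverse.length := by
      rw [SimpleGraph.Walk.length_reverse]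
      rw [SimpleGraph.Walk.length_cons] at hlen
      omega
    have hqm : ∀ w, w ∈ q.reverse.support := by
      intro w
      rw [SimpleGraph.Walk.support_reverse, List.mem_reverse]
      have := hmem w
      rw [SimpleGraph.Walk.support_cons, List.mem_cons] at this
      rcases this with rfl | h
      · exact q.end_mem_support
      · exact h
    generalize hr : q.reverse = r at hq hql hqm
    cases r with
    | nil => simp at hql
    | @cons _ y _ hy r =>
      rw [SimpleGraph.Walk.cons_isPath_iff] at hq
      refine ⟨x, y, r, hq.1, hy, hx, ?_, hq.2, ?_⟩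
      · rintro rfl
        have h0 := hq.1
        rw [SimpleGraph.Walk.isPath_iff_nil] at h0
        rw [SimpleGraph.Walk.length_cons, SimpleGraph.Walk.length_eq_zero_iff.2 h0] at hql
        omega
      · intro w hw
        have := hqm w
        rw [SimpleGraph.Walk.support_cons, List.mem_cons] at this
        exact this.resolve_left hw

omit [Finite V] in
/-- A list of vertices of `X` obtained from a Hamiltonian cycle of the contraction. -/
theorem list_of_ham {H : SimpleGraph (Option X)} (hH : H ≤ side G X) [Fintype (Option X)]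
    [DecidableEq (Option X)] (h : H.IsHamiltonian) [Nontrivial (Option X)] :
    ∃ (a b : X) (L : List V), L.IsChain G.Adj ∧ L.Nodup ∧ (∀ w, w ∈ L ↔ w ∈ X) ∧
      L.head? = some (a : V) ∧ L.getLast? = some (b : V) ∧ a ≠ b ∧ H.Adj none (some a) ∧
        H.Adj none (some b) := by
  obtain ⟨x, y, q, hq, hy, hx, hxy, hn, hc⟩ := path_of_ham h none
  cases x with
  | none => exact absurd hx (H.loopless.irrefl _)
  | some b =>
    cases y with
    | none => exact absurd hy (H.loopless.irrefl _)
    | some a =>
      have key : ∀ l : List (Option X), none ∉ l → ∃ L : List X, l = L.map some := by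
        intro l
        induction l with
        | nil => intro _; exact ⟨[], rfl⟩
        | cons c l ih =>
          intro hl
          rw [List.mem_cons, not_or] at hl
          obtain ⟨L, hL⟩ := ih hl.2
          cases c with
          | none => exact absurd rfl hl.1
          | some c => exact ⟨c :: L, by rw [hL, List.map_cons]⟩
      obtain ⟨L, hL⟩ := key q.support hn
      refine ⟨a, b, L.map Subtype.val, ?_, ?_, ?_, ?_, ?_, ?_, hy, hx⟩
      · have h1 := q.isChain_adj_support
        rw [hL, List.isChain_map] at h1
        rw [List.isChain_map]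
        refine h1.imp ?_
        intro u v huv
        exact (side_some_some u v).1 (hH huv)
      · have h1 := hq.support_nodup
        rw [hL] at h1
        exact (List.Nodup.of_map _ h1).map Subtype.val_injective
      · intro w
        rw [List.mem_map]
        constructor
        · rintro ⟨u, _, rfl⟩; exact u.2
        · intro hw
          have h1 := hc (some ⟨w, hw⟩) (by simp)
          rw [hL, List.mem_map] at h1
          obtain ⟨u, hu, he⟩ := h1
          rw [Option.some.injEq] at he
          exact ⟨u, hu, by rw [he]⟩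
      · have h1 : q.support.head? = some (some a) := by
          rw [← q.cons_tail_support]; rfl
        rw [hL, List.head?_map] at h1
        rw [List.head?_map]
        cases h2 : L.head? with
        | none => rw [h2] at h1; simp at h1
        | some c =>
          rw [h2] at h1
          simp only [Option.map_some, Option.some.injEq] at h1
          rw [h1]; rfl
      · have h1 : q.support.getLast? = some (some b) := by
          rw [List.getLast?_eq_some_getLast q.support_ne_nil, q.getLast_support]
        rw [hL, List.getLast?_map] at h1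
        rw [List.getLast?_map]
        cases h2 : L.getLast? with
        | none => rw [h2] at h1; simp at h1
        | some c =>
          rw [h2] at h1
          simp only [Option.map_some, Option.some.injEq] at h1
          rw [h1]; rfl
      · intro e; exact hxy (by rw [e])

omit [Finite V] in
theorem exists_walk_of_list : ∀ (l : List V) (x : V), (x :: l).IsChain G.Adj →
    ∃ y, y ∈ (x :: l).getLast? ∧ ∃ w : G.Walk x y, w.support = x :: l := by
  intro l
  induction l with
  | nil => intro x _; exact ⟨x, rfl, SimpleGraph.Walk.nil, rfl⟩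
  | cons a l ih =>
    intro x h
    rw [List.isChain_cons_cons] at h
    obtain ⟨y, hy, w, hw⟩ := ih a h.2
    refine ⟨y, ?_, SimpleGraph.Walk.cons h.1 w, ?_⟩
    · rw [List.getLast?_cons_cons]; exact hy
    · rw [SimpleGraph.Walk.support_cons, hw]

omit [Finite V] in
theorem ham_of_list [Fintype V] [DecidableEq V] (v x : V) (l : List V)
    (hch : (x :: l).IsChain G.Adj) (hnd : (x :: l).Nodup) (hcov : ∀ w, w ≠ v → w ∈ x :: l)
    (hv : v ∉ x :: l) (h1 : G.Adj v x) (h2 : ∀ y ∈ (x :: l).getLast?, G.Adj y v) (hl : l ≠ []) :
    G.IsHamiltonian := by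
  intro _
  obtain ⟨y, hy, w, hw⟩ := exists_walk_of_list l x hch
  have hadj := h2 y hy
  refine ⟨v, SimpleGraph.Walk.cons h1 (w.concat hadj), ?_⟩
  rw [SimpleGraph.Walk.isHamiltonianCycle_iff_isCycle_and_support_count_tail_eq_one]
  have hsup : (w.concat hadj).support = (x :: l) ++ [v] := by
    rw [SimpleGraph.Walk.support_concat, hw]
  have hnd2 : ((x :: l) ++ [v]).Nodup := by
    rw [List.nodup_append]
    refine ⟨hnd, List.nodup_singleton _, ?_⟩
    intro a ha b hb hab
    rw [List.mem_singleton] at hb
    rw [hab, hb] at ha; exact hv ha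
  refine ⟨?_, ?_⟩
  · rw [SimpleGraph.Walk.cons_isCycle_iff]
    refine ⟨?_, ?_⟩
    · rw [SimpleGraph.Walk.isPath_def, hsup]; exact hnd2
    · rw [SimpleGraph.Walk.edges_concat, List.concat_eq_append, List.mem_append]
      rintro (h | h)
      · have := w.fst_mem_support_of_mem_edges h
        rw [hw] at this; exact hv this
      · rw [List.mem_singleton, Sym2.eq_swap, Sym2.eq_iff] at h
        have hxy : x = y := by
          rcases h with ⟨h, _⟩ | ⟨h, _⟩
          · exact h
          · exfalso; rw [← h] at hv; exact hv (by simp)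
        obtain ⟨a, l', rfl⟩ := List.exists_cons_of_ne_nil hl
        rw [List.getLast?_cons_cons] at hy
        have := List.mem_of_mem_getLast? hy
        rw [← hxy] at this
        exact (List.nodup_cons.1 hnd).1 this
  · intro a
    have e : (SimpleGraph.Walk.cons h1 (w.concat hadj)).support.tail = (x :: l) ++ [v] := by
      rw [SimpleGraph.Walk.support_cons, List.tail_cons, hsup]
    rw [e]
    apply List.count_eq_one_of_mem hnd2
    by_cases hav : a = v
    · rw [hav]; simp
    · exact List.mem_append_left _ (hcov a hav)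

omit [Finite V] in
/-- Two lists which close up to a Hamiltonian cycle. -/
theorem ham_of_two [Fintype V] [DecidableEq V] (L M : List V) (a₁ a₂ b₁ b₂ : V)
    (hL : L.IsChain G.Adj) (hM : M.IsChain G.Adj) (hLn : L.Nodup) (hMn : M.Nodup)
    (hLX : ∀ w, w ∈ L ↔ w ∈ X) (hMX : ∀ w, w ∈ M ↔ w ∉ X)
    (hL1 : L.head? = some a₁) (hL2 : L.getLast? = some a₂) (hM1 : M.head? = some b₂)
    (hM2 : M.getLast? = some b₁) (ha : a₁ ≠ a₂) (h1 : G.Adj a₁ b₁) (h2 : G.Adj a₂ b₂) :
    G.IsHamiltonian := by
  cases L with
  | nil => simp at hL1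
  | cons c L =>
    rw [List.head?_cons, Option.some.injEq] at hL1
    subst hL1
    cases L with
    | nil =>
      rw [List.getLast?_singleton, Option.some.injEq] at hL2
      exact absurd hL2 ha
    | cons x L =>
      rw [List.getLast?_cons_cons] at hL2
      have hMne : M ≠ [] := by
        rintro rfl; simp at hM1
      apply ham_of_list c x (L ++ M)
      · rw [← List.cons_append]
        rw [List.isChain_append]
        refine ⟨(List.isChain_cons_cons.1 hL).2, hM, ?_⟩
        intro u hu w hw
        rw [hL2, Option.mem_def, Option.some.injEq] at hu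
        rw [hM1, Option.mem_def, Option.some.injEq] at hw
        rw [← hu, ← hw]
        exact h2
      · rw [← List.cons_append, List.nodup_append]
        refine ⟨(List.nodup_cons.1 hLn).2, hMn, ?_⟩
        intro u hu w hw e
        rw [← e] at hw
        exact (hMX u).1 hw ((hLX u).1 (List.mem_cons_of_mem _ hu))
      · intro w hw
        rw [← List.cons_append, List.mem_append]
        by_cases hwX : w ∈ X
        · left
          have := (hLX w).2 hwX
          rw [List.mem_cons] at this
          exact this.resolve_left hw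
        · right; exact (hMX w).2 hwX
      · rw [← List.cons_append, List.mem_append, not_or]
        refine ⟨(List.nodup_cons.1 hLn).1, ?_⟩
        intro h
        exact (hMX c).1 h ((hLX c).1 List.mem_cons_self)
      · exact (List.isChain_cons_cons.1 hL).1
      · intro y hy
        rw [← List.cons_append, List.getLast?_append, hM2, Option.some_or, Option.mem_def,
          Option.some.injEq] at hy
        rw [← hy]; exact h1.symm
      · simp [hMne]

end StGlue

end Vale.Agent.P039
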