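import Vale.Agent.P039.Sk.Pos

/-! The imaginary part of the signed sum: definitions, the square rule and duality. -/

namespace Vale.Agent.P039.Sk

variable {B W V B' W' : Type}

def epsi (a : ZMod 4) : ℤ := if a = 1 then 1 else if a = 3 then -1 else 0

theorem eps_add_two_i (a : ZMod 4) : epsi (a + 2) = - epsi a := by revert a; decide
theorem epsi_neg (a : ZMod 4) : epsi (-a) = - epsi a := by revert a; decide

section defs

variable {Y : Web B W} [Fintype B] [Fintype V]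

open Classical in
noncomputable def Lab.Si (L : Lab Y V) (m : V → ZMod 4) : ℤ :=
  ∑ h : V → ZMod 12, if L.Sol h then epsi (L.E m h) else 0

open Classical in
noncomputable def Lab.T1i (L : Lab Y V) (j : Fin 3) (b₁ b₂ : B) (m : V → ZMod 4) : ℤ :=
  ∑ h : V → ZMod 12, if L.Sol h ∧ L.type1 j b₁ b₂ h then epsi (L.E m h) else 0

open Classical in
noncomputable def Lab.T2i (L : Lab Y V) (j : Fin 3) (b₁ b₂ : B) (m : V → ZMod 4) : ℤ :=
  ∑ h : V → ZMod 12, if L.Sol h ∧ L.type2 j b₁ b₂ h then epsi (L.E m h) else 0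

open Classical in
noncomputable def Lab.M1i (L : Lab Y V) (j : Fin 3) (b₁ b₂ : B) (m : V → ZMod 4) : ℤ :=
  ∑ h : V → ZMod 12, if L.ZS j b₁ b₂ h then
    epsi (L.E m h + kap (h (L.c (j + 1) b₁))) else 0

end defs

section sq

variable {Y : Web B W} {X : Web B' W'} {f : B' → B} {g : W' → W} {j : Fin 3} {b₁ b₂ : B}
variable [Fintype B] [Fintype V] [DecidableEq V] [Fintype B']

theorem eps_shift_i (a b c : ZMod 4) (h : a = b + c) (hc : c = 0) : epsi a = epsi b := by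
  rw [h, hc, add_zero]

open Classical in
/-- B1 -/
theorem sum_nonmono_i (R : SqRel Y X f g j b₁ b₂) (L : Lab Y V)
    (hp : L.c (j + 1) b₁ ≠ L.c (j + 1) b₂) (L' : Lab X (L.V1 j b₁ b₂))
    (hL' : ∀ k b, ((L'.c k b : L.V1 j b₁ b₂) : V) =
      if L.c k (f b) = L.c (j + 1) b₂ then L.c (j + 1) b₁ else L.c k (f b))
    {β₁ β₂ : B'} (h₁ : Y.e j (f β₁) = Y.e (j + 2) b₁) (h₂ : Y.e j (f β₂) = Y.e (j + 2) b₂)
    (m : V → ZMod 4) (hm : m (L.c j b₁) = 0) :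
    L.T1i j b₁ b₂ m = ∑ h : L.V1 j b₁ b₂ → ZMod 12,
      if L'.Sol h ∧ ¬ L'.mono j β₁ β₂ h then epsi (L'.E (L.m1 j b₁ b₂ m) h) else 0 := by
  have hps : L.c (j + 1) b₁ ≠ L.c j b₁ := fun h => fne1 j (L.cls _ _ _ _ h)
  have hqs : ∀ b, L.c (j + 2) b ≠ L.c j b₁ := fun b h => fne2 j (L.cls _ _ _ _ h)
  have hqp : ∀ b, L.c (j + 2) b ≠ L.c (j + 1) b₂ := fun b h => fne21 j (L.cls _ _ _ _ h)
  let pv : L.V1 j b₁ b₂ := ⟨L.c (j + 1) b₁, hps, hp⟩
  let qv : L.V1 j b₁ b₂ := ⟨L.c (j + 2) b₂, hqs _, hqp _⟩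
  let qv' : L.V1 j b₁ b₂ := ⟨L.c (j + 2) b₁, hqs _, hqp _⟩
  have hh : ∀ h : V → ZMod 12, h (L.c (j + 1) b₁) = h (L.c (j + 1) b₂) → ∀ k a,
      (fun v : L.V1 j b₁ b₂ => h v.1) (L'.c k a) = h (L.c k (f a)) := by
    intro h hpp k a
    show h ((L'.c k a : L.V1 j b₁ b₂) : V) = _
    rw [hL']
    split_ifs with h1
    · rw [h1, hpp]
    · rfl
  have key : ∀ h : V → ZMod 12, L.type1 j b₁ b₂ h → (L.Sol h ↔
      L'.Sol (fun v => h v.1) ∧ ¬ L'.mono j β₁ β₂ (fun v => h v.1)) :=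
    fun h ht => sol_type1 R L L' h₁ h₂ (hh h ht.1) ht
  unfold Lab.T1i
  rw [← Finset.sum_filter, ← Finset.sum_filter]
  have hres : ∀ h' : L.V1 j b₁ b₂ → ZMod 12, (fun v : L.V1 j b₁ b₂ =>
      L.ext j b₁ b₂ pv (h' qv + h' qv' - h' pv) h' v.1) = h' := by
    intro h'
    funext v
    exact L.ext_val pv _ h' v
  have htype : ∀ h' : L.V1 j b₁ b₂ → ZMod 12, L.type1 j b₁ b₂
      (L.ext j b₁ b₂ pv (h' qv + h' qv' - h' pv) h') := by
    intro h'
    have v1 := L.ext_val pv (h' qv + h' qv' - h' pv) h' pv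
    have v2 := L.ext_val pv (h' qv + h' qv' - h' pv) h' qv
    have v3 := L.ext_val pv (h' qv + h' qv' - h' pv) h' qv'
    have v4 := L.ext_s pv (h' qv + h' qv' - h' pv) h'
    have v5 := L.ext_p' pv (h' qv + h' qv' - h' pv) h'
    refine ⟨?_, ?_⟩
    · rw [v5]; exact v1
    · rw [v4]
      change _ + L.ext j b₁ b₂ pv (h' qv + h' qv' - h' pv) h' pv.1 =
        L.ext j b₁ b₂ pv (h' qv + h' qv' - h' pv) h' qv'.1 +
        L.ext j b₁ b₂ pv (h' qv + h' qv' - h' pv) h' qv.1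
      rw [v1, v2, v3]
      ring
  refine Finset.sum_nbij' (fun h v => h v.1)
    (fun h' => L.ext j b₁ b₂ pv (h' qv + h' qv' - h' pv) h') ?_ ?_ ?_ ?_ ?_
  · intro h hh'
    simp only [Finset.mem_filter, Finset.mem_univ, true_and] at hh' ⊢
    exact (key h hh'.2).1 hh'.1
  · intro h' hh'
    simp only [Finset.mem_filter, Finset.mem_univ, true_and] at hh' ⊢
    refine ⟨(key _ (htype h')).2 ?_, htype h'⟩
    rw [hres]
    exact hh'
  · intro h hh'
    simp only [Finset.mem_filter, Finset.mem_univ, true_and] at hh'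
    have e1 : h (L.c j b₁) = (fun v : L.V1 j b₁ b₂ => h v.1) qv +
        (fun v : L.V1 j b₁ b₂ => h v.1) qv' - (fun v : L.V1 j b₁ b₂ => h v.1) pv := by
      have := hh'.2.2
      show h (L.c j b₁) = h (L.c (j + 2) b₂) + h (L.c (j + 2) b₁) - h (L.c (j + 1) b₁)
      linear_combination this
    have := L.ext_res pv h hh'.2.1
    rw [e1] at this
    exact this
  · intro h' _
    exact hres h'
  · intro h hh'
    simp only [Finset.mem_filter, Finset.mem_univ, true_and] at hh'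
    refine eps_shift_i _ _ _ (E_diff R L hp L' hL' m hm h hh'.2.1) ?_
    have := congrArg kap hh'.2.2
    rw [map_add, map_add] at this
    linear_combination this

open Classical in
/-- B2 -/
theorem sum_mono_i (R : SqRel Y X f g j b₁ b₂) (L : Lab Y V)
    (hp : L.c (j + 1) b₁ ≠ L.c (j + 1) b₂) (L' : Lab X (L.V1 j b₁ b₂))
    (hL' : ∀ k b, ((L'.c k b : L.V1 j b₁ b₂) : V) =
      if L.c k (f b) = L.c (j + 1) b₂ then L.c (j + 1) b₁ else L.c k (f b))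
    {β₁ β₂ : B'} (h₁ : Y.e j (f β₁) = Y.e (j + 2) b₁) (h₂ : Y.e j (f β₂) = Y.e (j + 2) b₂)
    (m : V → ZMod 4) (hm : m (L.c j b₁) = 0) :
    L.M1i j b₁ b₂ m = ∑ h : L.V1 j b₁ b₂ → ZMod 12,
      if L'.Sol h ∧ L'.mono j β₁ β₂ h then epsi (L'.E (L.m1 j b₁ b₂ m) h) else 0 := by
  have hps : L.c (j + 1) b₁ ≠ L.c j b₁ := fun h => fne1 j (L.cls _ _ _ _ h)
  let pv : L.V1 j b₁ b₂ := ⟨L.c (j + 1) b₁, hps, hp⟩
  have hh : ∀ h : V → ZMod 12, h (L.c (j + 1) b₁) = h (L.c (j + 1) b₂) → ∀ k a,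
      (fun v : L.V1 j b₁ b₂ => h v.1) (L'.c k a) = h (L.c k (f a)) := by
    intro h hpp k a
    show h ((L'.c k a : L.V1 j b₁ b₂) : V) = _
    rw [hL']
    split_ifs with h1
    · rw [h1, hpp]
    · rfl
  have key : ∀ h : V → ZMod 12, h (L.c j b₁) = 0 →
      h (L.c (j + 1) b₁) = h (L.c (j + 1) b₂) → (L.ZS j b₁ b₂ h ↔
      L'.Sol (fun v => h v.1) ∧ L'.mono j β₁ β₂ (fun v => h v.1)) :=
    fun h hs hpp => sol_mono R L L' h₁ h₂ (hh h hpp) hs hpp
  unfold Lab.M1i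
  rw [← Finset.sum_filter, ← Finset.sum_filter]
  have hres : ∀ h' : L.V1 j b₁ b₂ → ZMod 12, (fun v : L.V1 j b₁ b₂ =>
      L.ext j b₁ b₂ pv 0 h' v.1) = h' := by
    intro h'
    funext v
    exact L.ext_val pv _ h' v
  refine Finset.sum_nbij' (fun h v => h v.1) (fun h' => L.ext j b₁ b₂ pv 0 h') ?_ ?_ ?_ ?_ ?_
  · intro h hh'
    simp only [Finset.mem_filter, Finset.mem_univ, true_and] at hh' ⊢
    exact (key h hh'.1 hh'.2.1.symm).1 hh'
  · intro h' hh'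
    simp only [Finset.mem_filter, Finset.mem_univ, true_and] at hh' ⊢
    refine (key _ (L.ext_s pv 0 h') ?_).2 ?_
    · rw [L.ext_p' pv 0 h']
      exact L.ext_val pv 0 h' pv
    · rw [hres]
      exact hh'
  · intro h hh'
    simp only [Finset.mem_filter, Finset.mem_univ, true_and] at hh'
    have := L.ext_res pv h hh'.2.1.symm
    rw [hh'.1] at this
    exact this
  · intro h' _
    exact hres h'
  · intro h hh'
    simp only [Finset.mem_filter, Finset.mem_univ, true_and] at hh'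
    obtain ⟨z1, z2, z3, z4, -, -⟩ := hh'
    congr 1
    rw [E_diff R L hp L' hL' m hm h z2.symm, z1, z3, z4, map_sub, map_zero]
    have h2 : (kap 2 : ZMod 4) = 2 := by decide
    rw [h2]
    generalize kap (h (L.c (j + 1) b₁)) = t
    have : (4 : ZMod 4) = 0 := by decide
    linear_combination this

/-- B3 (from B1 and B2) -/
theorem T1_add_M1_i (R : SqRel Y X f g j b₁ b₂) (L : Lab Y V)
    (hp : L.c (j + 1) b₁ ≠ L.c (j + 1) b₂) (L' : Lab X (L.V1 j b₁ b₂))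
    (hL' : ∀ k b, ((L'.c k b : L.V1 j b₁ b₂) : V) =
      if L.c k (f b) = L.c (j + 1) b₂ then L.c (j + 1) b₁ else L.c k (f b))
    (m : V → ZMod 4) (hm : m (L.c j b₁) = 0) :
    L.T1i j b₁ b₂ m + L.M1i j b₁ b₂ m = L'.Si (L.m1 j b₁ b₂ m) := by
  classical
  obtain ⟨β₁, β₂, -, h₁, h₂⟩ := R.betas
  rw [sum_nonmono_i R L hp L' hL' h₁ h₂ m hm, sum_mono_i R L hp L' hL' h₁ h₂ m hm]
  unfold Lab.Si
  rw [← Finset.sum_add_distrib]
  refine Finset.sum_congr (by ext; simp) fun h _ => ?_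
  by_cases h1 : L'.Sol h <;> by_cases h2 : L'.mono j β₁ β₂ h <;> simp [h1, h2]


end sq

section sq2

variable {X : Web B W} [Fintype B] [Fintype W] [Fintype V] [DecidableEq V] {j : Fin 3} {b₁ b₂ : B}

theorem S_eq_T1_add_T2_i (Q : Sq4 X j b₁ b₂) (L : Lab X V) (m : V → ZMod 4) :
    L.Si m = L.T1i j b₁ b₂ m + L.T2i j b₁ b₂ m := by
  classical
  unfold Lab.Si Lab.T1i Lab.T2i
  rw [← Finset.sum_add_distrib]
  refine Finset.sum_congr (Finset.ext fun _ => by simp) fun h _ => ?_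
  by_cases hs : L.Sol h
  · rcases type12 Q L hs with ⟨t1, t2⟩ | ⟨t1, t2⟩
    · rw [if_pos hs, if_pos ⟨hs, t1⟩, if_neg (fun e => t2 e.2), add_zero]
    · rw [if_pos hs, if_neg (fun e => t1 e.2), if_pos ⟨hs, t2⟩, zero_add]
  · rw [if_neg hs, if_neg (fun e => hs e.1), if_neg (fun e => hs e.1), add_zero]

/-- `q = q'`: all solutions have type 1 and there is no mono contribution (given `p ≠ p'`) -/
theorem T2_zero_i (Q : Sq4 X j b₁ b₂) (L : Lab X V) (hc : Fintype.card V = Fintype.card B + 2)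
    (hq : L.c (j + 2) b₁ = L.c (j + 2) b₂) (m : V → ZMod 4) : L.T2i j b₁ b₂ m = 0 := by
  classical
  unfold Lab.T2i
  refine Finset.sum_eq_zero fun h _ => ?_
  rw [if_neg]
  rintro ⟨hs, ht⟩
  have cs := Q.cs L
  have b1 : X.e j ((X.e j).symm (X.e (j + 2) b₁)) = X.e (j + 2) b₁ := Equiv.apply_symm_apply _ _
  have b2 : X.e j ((X.e j).symm (X.e (j + 2) b₂)) = X.e (j + 2) b₂ := Equiv.apply_symm_apply _ _
  generalize (X.e j).symm (X.e (j + 2) b₁) = β₁ at b1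
  generalize (X.e j).symm (X.e (j + 2) b₂) = β₂ at b2
  obtain ⟨u1, u2⟩ := Q.cβ₁ L b1
  obtain ⟨v1, v2⟩ := Q.cβ₂ L b2
  have hp := Q.pattern L hs
  simp only at hp
  have d1 : (x : ZMod 12) → x + 1 ≠ x - 2 := by decide
  have d2 : (x : ZMod 12) → x + 2 ≠ x - 1 := by decide
  rcases hp with ⟨e1, e2, e3, e4⟩ | ⟨e1, e2, e3, e4⟩ | ⟨e1, e2, e3, e4⟩ |
    ⟨e1, e2, e3, e4⟩ | ⟨e1, e2, e3, e4⟩ | ⟨e1, e2, e3, e4⟩
  · rw [hq, e3] at e4
    exact d2 _ e4.symm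
  · rw [hq, e3] at e4
    exact d2 _ e4
  · have := ht.2
    rw [e1, e2, e4] at this
    generalize h (L.c j b₁) = x at this
    revert x; decide
  · -- colour j + 1 at b₁ and b₂
    refine no_dup L hc hs Q.ne (i := j + 1) (i' := j + 1) ?_ ?_ ?_ ?_
    · rw [f11, f12, e4]; ring
    · rw [f11, f12, cs, e3]; ring
    · rw [f11, hq]
    · rw [f12, cs]
  · -- colour j at b₁ and β₁
    refine no_dup L hc hs (b := b₁) (b' := β₁) ?_ (i := j) (i' := j) ?_ ?_ ?_ ?_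
    · rintro rfl; exact Q.n11 b1
    · rw [e1, e4]; ring
    · rw [u1, u2, e1, e3]; ring
    · rw [u1]
    · rw [u2, hq]
  · -- colour j at b₂ and β₂
    refine no_dup L hc hs (b := b₂) (b' := β₂) ?_ (i := j) (i' := j) ?_ ?_ ?_ ?_
    · rintro rfl; exact Q.n22 b2
    · rw [e2, e3]; ring
    · rw [v1, v2, e2, e4]; ring
    · rw [v1]
    · rw [v2, hq]

theorem M1_zero_i (Q : Sq4 X j b₁ b₂) (L : Lab X V) (hc : Fintype.card V = Fintype.card B + 2)
    (hp : L.c (j + 1) b₁ ≠ L.c (j + 1) b₂)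
    (hq : L.c (j + 2) b₁ = L.c (j + 2) b₂) (m : V → ZMod 4) (hm : m (L.c j b₁) = 0) :
    L.M1i j b₁ b₂ m = 0 := by
  classical
  obtain ⟨Z, R⟩ := Q.exists_rel
  obtain ⟨L', hL'⟩ := R.exists_lab L hp
  obtain ⟨β₁, β₂, hβ, h₁, h₂⟩ := R.betas
  rw [sum_mono_i R L hp L' hL' h₁ h₂ m hm]
  refine Finset.sum_eq_zero fun h _ => ?_
  rw [if_neg]
  rintro ⟨hs, ht⟩
  have hcB := R.card_B
  have hcV := R.card_V L hp
  obtain ⟨a1, a2⟩ := R.c_β₁ L h₁
  obtain ⟨c1, c2⟩ := R.c_β₂ L h₂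
  have n12 : ∀ a b : B, L.c (j + 2) a ≠ L.c (j + 1) b := fun a b e => fne21 j (L.cls _ _ _ _ e)
  refine no_dup L' (by omega) hs hβ ht.1 ht.2 ?_ ?_
  · apply Subtype.ext
    rw [hL', hL', a1, c1, if_neg hp, if_pos rfl]
  · apply Subtype.ext
    rw [hL', hL', a2, c2, if_neg (n12 _ _), if_neg (n12 _ _), hq]

theorem T1_zero_i (Q : Sq4 X j b₁ b₂) (L : Lab X V) (hc : Fintype.card V = Fintype.card B + 2)
    (hp : L.c (j + 1) b₁ = L.c (j + 1) b₂) (m : V → ZMod 4) : L.T1i j b₁ b₂ m = 0 := by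
  classical
  unfold Lab.T1i
  refine Finset.sum_eq_zero fun h _ => ?_
  rw [if_neg]
  rintro ⟨hs, ht⟩
  have cs := Q.cs L
  have b1 : X.e j ((X.e j).symm (X.e (j + 2) b₁)) = X.e (j + 2) b₁ := Equiv.apply_symm_apply _ _
  have b2 : X.e j ((X.e j).symm (X.e (j + 2) b₂)) = X.e (j + 2) b₂ := Equiv.apply_symm_apply _ _
  generalize (X.e j).symm (X.e (j + 2) b₁) = β₁ at b1
  generalize (X.e j).symm (X.e (j + 2) b₂) = β₂ at b2
  obtain ⟨u1, u2⟩ := Q.cβ₁ L b1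
  obtain ⟨v1, v2⟩ := Q.cβ₂ L b2
  have hpt := Q.pattern L hs
  simp only at hpt
  have d1 : (x : ZMod 12) → x + 1 ≠ x - 2 := by decide
  rcases hpt with ⟨e1, e2, e3, e4⟩ | ⟨e1, e2, e3, e4⟩ | ⟨e1, e2, e3, e4⟩ |
    ⟨e1, e2, e3, e4⟩ | ⟨e1, e2, e3, e4⟩ | ⟨e1, e2, e3, e4⟩
  · -- colour j at b₂ and β₁
    refine no_dup L hc hs (b := b₂) (b' := β₁) ?_ (i := j) (i' := j) ?_ ?_ ?_ ?_
    · rintro rfl; exact Q.n21 b1
    · rw [e2, e3]; ring
    · rw [u1, u2, e1, e3]; ring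
    · rw [u1, hp]
    · rw [u2]
  · -- colour j at b₁ and β₂
    refine no_dup L hc hs (b := b₁) (b' := β₂) ?_ (i := j) (i' := j) ?_ ?_ ?_ ?_
    · rintro rfl; exact Q.n12 b2
    · rw [e1, e4]; ring
    · rw [v1, v2, e2, e4]; ring
    · rw [v1, hp]
    · rw [v2]
  · -- colour j + 2 at b₁ and b₂
    refine no_dup L hc hs Q.ne (i := j + 2) (i' := j + 2) ?_ ?_ ?_ ?_
    · rw [f22, f21, e1]
    · rw [f22, f21, cs, e2]
    · rw [f21, cs]
    · rw [f22, hp]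
  · have := ht.2
    rw [e1, e3, e4] at this
    generalize h (L.c j b₁) = x at this
    revert x; decide
  · rw [hp, e2] at e1
    exact d1 _ e1.symm
  · rw [hp, e2] at e1
    exact d1 _ e1


end sq2

section dualpart

variable {X : Web B W} [Fintype B] [Fintype W] [Fintype V] [DecidableEq V]

theorem dual_S_i (L : Lab X V) (m : V → ZMod 4) : L.dual.Si m = - L.Si m := by
  unfold Lab.Si
  rw [← Finset.sum_neg_distrib]
  refine (dual_sum _).trans ?_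
  refine Finset.sum_congr rfl fun h _ => ?_
  have e1 : (Equiv.neg (V → ZMod 12)) h = fun v => - h v := rfl
  rw [e1, dual_E, epsi_neg]
  by_cases hs : L.Sol h
  · rw [if_pos hs, if_pos ((dual_sol L h).2 hs)]
  · rw [if_neg hs, if_neg fun hs' => hs ((dual_sol L h).1 hs'), neg_zero]

theorem dual_T1_i {j : Fin 3} {b₁ b₂ : B} (Q : Sq4 X j b₁ b₂) (L : Lab X V) (m : V → ZMod 4) :
    L.dual.T1i (-j) (X.e (j + 2) b₁) (X.e (j + 2) b₂) m = - L.T2i j b₁ b₂ m := by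
  unfold Lab.T1i Lab.T2i
  rw [← Finset.sum_neg_distrib]
  refine (dual_sum _).trans ?_
  refine Finset.sum_congr rfl fun h _ => ?_
  have e1 : (Equiv.neg (V → ZMod 12)) h = fun v => - h v := rfl
  rw [e1, dual_E, epsi_neg]
  have hiff := and_congr (dual_sol L h) (dual_type1 Q L h)
  by_cases hs : L.Sol h ∧ L.type2 j b₁ b₂ h
  · rw [if_pos hs, if_pos (hiff.2 hs)]
  · rw [if_neg hs, if_neg fun hs' => hs (hiff.1 hs'), neg_zero]

theorem dual_M1_i {j : Fin 3} {b₁ b₂ : B} (Q : Sq4 X j b₁ b₂) (L : Lab X V) (m : V → ZMod 4) :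
    L.dual.M1i (-j) (X.e (j + 2) b₁) (X.e (j + 2) b₂) m = L.M1i j b₁ b₂ m := by
  unfold Lab.M1i
  refine (dual_sum _).trans ?_
  refine Finset.sum_congr rfl fun h _ => ?_
  have e1 : (Equiv.neg (V → ZMod 12)) h = fun v => - h v := rfl
  rw [e1, dual_E]
  by_cases hz : L.ZS j b₁ b₂ h
  · rw [if_pos hz, if_pos ((dual_ZS Q L h).2 hz), (Q.dual_c' L).2.1]
    simp only
    rw [hz.2.2.2.1]
    have e2 : - L.E m h + kap (-(h (L.c (j + 1) b₁) - 2)) =
        -(L.E m h + kap (h (L.c (j + 1) b₁))) + 2 := by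
      rw [map_neg, map_sub]
      have : kap 2 = 2 := by decide
      rw [this]
      ring
    rw [e2, eps_add_two_i, epsi_neg, neg_neg]
  · rw [if_neg hz, if_neg fun hz' => hz ((dual_ZS Q L h).1 hz')]

end dualpart

end Vale.Agent.P039.Sk
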