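import Vale.Agent.P039.St.ImA

/-! The imaginary part: digons and one black vertex. -/

namespace Vale.Agent.P039.Sk

variable {B W V B' W' : Type}

section dg

variable {Y : Web B W} [Fintype B] [Fintype V] [DecidableEq V] {j : Fin 3} {b : B}

open Classical in
theorem Lab.Si_eq_dg (L : Lab Y V) (m : V → ZMod 4) :
    L.Si m = ∑ h : V → ZMod 12, if L.Sol h then epsi (L.E m h) else 0 := by
  unfold Lab.Si
  apply Finset.sum_congr _ (fun _ _ => rfl)
  ext x
  simp only [Finset.mem_univ]

/-- an unmarked digon: `b` is the only black vertex of the face `L.c j b` -/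
theorem S_digon_i (L : Lab Y V) (m : V → ZMod 4) (hm : m (L.c j b) = 0)
    (hu : ∀ b', L.c j b' = L.c j b → b' = b) (hN : ∃ b', b' ≠ b) : L.Si m = 0 := by
  classical
  have hf := L.dg_edge hu
  have hvs : L.c (j + 2) b ≠ L.c j b := fun h => fne2 j (L.cls _ _ _ _ h)
  have hus : L.c (j + 1) b ≠ L.c j b := fun h => fne1 j (L.cls _ _ _ _ h)
  let σ : (V → ZMod 12) → (V → ZMod 12) := fun h =>
    Function.update h (L.c j b) (2 * h (L.c (j + 2) b) - 1 - h (L.c j b))
  have σs : ∀ h, σ h (L.c j b) = 2 * h (L.c (j + 2) b) - 1 - h (L.c j b) := fun h => by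
    simp [σ]
  have σne : ∀ h v, v ≠ L.c j b → σ h v = h v := fun h v hv => by
    simp [σ, hv]
  have hσ : ∀ h, σ (σ h) = h := by
    intro h
    funext v
    by_cases hv : v = L.c j b
    · rw [hv, σs, σs, σne _ _ hvs]
      ring
    · rw [σne _ _ hv, σne _ _ hv]
  have hSol : ∀ h, L.Sol h → L.Sol (σ h) := by
    rintro h ⟨hv, hc⟩
    have hup := Lab.dg_up hf hN hc
    have v1 := hv (j + 1) b
    rw [f12, f11] at v1
    have hd1 : h (L.c j b) = h (L.c (j + 2) b) + 1 →
        σ h (L.c j b) = h (L.c (j + 2) b) - 2 := by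
      intro h1
      rw [σs, h1]
      ring
    have hd2 : h (L.c j b) = h (L.c (j + 2) b) - 2 →
        σ h (L.c j b) = h (L.c (j + 2) b) + 1 := by
      intro h1
      rw [σs, h1]
      ring
    have hcls : ∀ k b1, L.c k b1 = L.c j b → k = j ∧ b1 = b := by
      intro k b1 h1
      have hk := L.cls _ _ _ _ h1
      rw [hk] at h1
      exact ⟨hk, hu _ h1⟩
    have key : ∀ i b1, ¬ (b1 = b ∧ i ≠ j) →
        σ h (L.c (i + 2) b1) = h (L.c (i + 2) b1) ∧ σ h (L.c (i + 1) b1) = h (L.c (i + 1) b1) := by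
      intro i b1 hib
      constructor
      · apply σne
        intro h1
        obtain ⟨hk, hb⟩ := hcls _ _ h1
        apply hib
        refine ⟨hb, fun hij => ?_⟩
        rw [hij] at hk
        exact fne2 j hk
      · apply σne
        intro h1
        obtain ⟨hk, hb⟩ := hcls _ _ h1
        apply hib
        refine ⟨hb, fun hij => ?_⟩
        rw [hij] at hk
        exact fne1 j hk
    constructor
    · intro i b1
      by_cases hib : b1 = b ∧ i ≠ j
      · obtain ⟨rfl, hij⟩ := hib
        rcases fcase i j with hi | hi | hi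
        · exact absurd hi hij
        · rw [hi, f12, f11, σne _ _ hvs]
          rcases v1 with h1 | h1
          · exact Or.inr (hd1 h1)
          · exact Or.inl (hd2 h1)
        · rw [hi, f22, f21, σne _ _ hus]
          rcases v1 with h1 | h1
          · left
            rw [hd1 h1, hup]
            ring
          · right
            rw [hd2 h1, hup]
            ring
      · rw [(key i b1 hib).1, (key i b1 hib).2]
        exact hv i b1
    · intro x y
      refine Relation.EqvGen.mono ?_ _ _ (hc x y)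
      rintro x y ⟨i, b1, h1, rfl, rfl⟩
      by_cases hib : b1 = b ∧ i ≠ j
      · obtain ⟨rfl, hij⟩ := hib
        rcases v1 with h2 | h2
        · -- new: edge j + 2
          refine ⟨j + 2, b1, ?_, rfl, ?_⟩
          · rw [f22, f21, σne _ _ hus, hd1 h2, hup]
            ring
          · rcases fcase i j with hi | hi | hi
            · exact absurd hi hij
            · rw [hi, hf]
            · rw [hi]
        · refine ⟨j + 1, b1, ?_, rfl, ?_⟩
          · rw [f12, f11, σne _ _ hvs, hd2 h2]
          · rcases fcase i j with hi | hi | hi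
            · exact absurd hi hij
            · rw [hi]
            · rw [hi, hf]
      · exact ⟨i, b1, by rw [(key i b1 hib).1, (key i b1 hib).2]; exact h1, rfl, rfl⟩
  have hE : ∀ h, L.Sol h → epsi (L.E m (σ h)) = - epsi (L.E m h) := by
    rintro h ⟨hv, hc⟩
    have v1 := hv (j + 1) b
    rw [f12, f11] at v1
    rw [L.dg_E_split (j := j) (b := b) (f := ((↑) : {a : B // a ≠ b} → B)) Subtype.val_injective
      (by simp) m (σ h), L.dg_E_split (j := j) (b := b) (f := ((↑) : {a : B // a ≠ b} → B))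
      Subtype.val_injective (by simp) m h]
    have e1 : ∑ v : {v : V // v ≠ L.c j b}, (3 + m v.1) * kap (σ h v.1) =
        ∑ v : {v : V // v ≠ L.c j b}, (3 + m v.1) * kap (h v.1) :=
      Finset.sum_congr rfl fun v _ => by rw [σne _ _ v.2]
    have e2 : ∑ a : {a : B // a ≠ b}, ∑ k, kap (σ h (L.c k a.1)) =
        ∑ a : {a : B // a ≠ b}, ∑ k, kap (h (L.c k a.1)) :=
      Finset.sum_congr rfl fun a _ => Finset.sum_congr rfl fun k _ => by
        rw [σne]
        intro h1
        have hk := L.cls _ _ _ _ h1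
        rw [hk] at h1
        exact a.2 (hu _ h1)
    rw [e1, e2, hm, σs, σne _ _ hus, σne _ _ hvs]
    rw [← eps_add_two_i]
    congr 1
    rcases v1 with h1 | h1
    · rw [h1, map_sub, map_sub, map_mul, dg_kap_two, map_add, map_one]
      linear_combination (-2 : ZMod 4) * dg_four4
    · rw [h1, map_sub, map_sub, map_mul, map_sub, dg_kap_two, map_one]
      linear_combination (1 : ZMod 4) * dg_four4
  have hmain : L.Si m = - L.Si m := by
    rw [Lab.Si_eq_dg]
    rw [← Finset.sum_neg_distrib]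
    refine Fintype.sum_equiv (⟨σ, σ, hσ, hσ⟩ : (V → ZMod 12) ≃ (V → ZMod 12)) _ _ fun h => ?_
    change _ = - (if L.Sol (σ h) then epsi (L.E m (σ h)) else 0)
    by_cases hs : L.Sol h
    · rw [if_pos hs, if_pos (hSol h hs), hE h hs, neg_neg]
    · rw [if_neg hs, if_neg (fun h1 => hs (by have := hSol _ h1; rwa [hσ] at this)), neg_zero]
  omega

/-- `Y` disconnected: the three edges of `b` are parallel -/
theorem S_isolated_i (L : Lab Y V) (m : V → ZMod 4) (h1 : Y.e (j + 1) b = Y.e j b)
    (h2 : Y.e (j + 2) b = Y.e j b) (hN : ∃ b', b' ≠ b) : L.Si m = 0 := by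
  classical
  rw [Lab.Si_eq_dg]
  refine Finset.sum_eq_zero fun h _ => if_neg ?_
  rintro ⟨-, hc⟩
  obtain ⟨b', hb'⟩ := hN
  refine Lab.dg_not_conn_of_closed (fun x => x = Sum.inl b ∨ x = Sum.inr (Y.e j b)) ?_
    (x := Sum.inl b) (y := Sum.inl b') (Or.inl rfl) (by simp [hb']) hc
  rintro x y ⟨i, b1, -, rfl, rfl⟩
  simp only [Sum.inl.injEq, reduceCtorEq, or_false, false_or, Sum.inr.injEq]
  have hi : Y.e j b = Y.e i b := by
    rcases fcase i j with hi | hi | hi
    · rw [hi]
    · rw [hi, h1]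
    · rw [hi, h2]
  rw [hi]
  exact ⟨fun hb => by rw [hb], fun h3 => (Y.e i).injective h3⟩

theorem dg_eps_c1_i : ∀ x e : ZMod 4, epsi (e + x) + epsi (e + (x - 2)) = 0 := by decide

theorem S_digon_marked_i [Fintype B'] {X : Web B' W'} {f : B' → B} {g : W' → W}
    (R : DgRel Y X f g j b)
    (L : Lab Y V) (L' : Lab X {v : V // v ≠ L.c j b})
    (hL' : ∀ k a, ((L'.c k a : {v : V // v ≠ L.c j b}) : V) = L.c k (f a))
    (m : V → ZMod 4) (hm : m (L.c j b) = 1) :
    L.Si m = L'.Si (fun v => m v.1 + if v.1 = L.c (j + 2) b then 1 else 0)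
      + L'.Si (fun v => m v.1 + if v.1 = L.c (j + 1) b then 1 else 0) := by
  classical
  obtain ⟨β, hβ⟩ := R.exists_beta
  have hvs : L.c (j + 2) b ≠ L.c j b := fun h => fne2 j (L.cls _ _ _ _ h)
  have hus : L.c (j + 1) b ≠ L.c j b := fun h => fne1 j (L.cls _ _ _ _ h)
  rw [Lab.Si_eq_dg, Lab.Si_eq_dg, Lab.Si_eq_dg, ← Finset.sum_add_distrib]
  rw [← (Equiv.funSplitAt (L.c j b) (ZMod 12)).symm.sum_comp, Fintype.sum_prod_type_right]
  refine Finset.sum_congr rfl fun h' _ => ?_
  -- the exponent of `X`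
  set E0 : ZMod 4 := ∑ v : {v : V // v ≠ L.c j b}, (3 + m v.1) * kap (h' v)
      - ∑ a : B', ∑ k, kap (h' (L'.c k a)) with hE0
  set v0 : {v : V // v ≠ L.c j b} := ⟨L.c (j + 2) b, hvs⟩ with hv0
  set u0 : {v : V // v ≠ L.c j b} := ⟨L.c (j + 1) b, hus⟩ with hu0
  have hEX : ∀ z : {v : V // v ≠ L.c j b}, L'.E (fun v => m v.1 + if v.1 = z.1 then 1 else 0) h' =
      E0 + kap (h' z) := by
    intro z
    have e1 : ∑ v : {v : V // v ≠ L.c j b}, (3 + (m v.1 + if v.1 = z.1 then 1 else 0)) * kap (h' v) =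
        ∑ v : {v : V // v ≠ L.c j b}, (3 + m v.1) * kap (h' v) + kap (h' z) := by
      have e2 : kap (h' z) = ∑ v : {v : V // v ≠ L.c j b}, if v = z then kap (h' v) else 0 := by
        rw [Finset.sum_ite_eq' Finset.univ z, if_pos (Finset.mem_univ _)]
      rw [e2, ← Finset.sum_add_distrib]
      refine Finset.sum_congr rfl fun v _ => ?_
      by_cases hz : v = z
      · rw [if_pos hz, if_pos (by rw [hz])]
        ring
      · rw [if_neg hz, if_neg (fun h => hz (Subtype.ext h))]
        ring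
    unfold Lab.E
    rw [e1, hE0]
    ring
  have hex : ∀ (t : ZMod 12) (v : {v : V // v ≠ L.c j b}),
      (Equiv.funSplitAt (L.c j b) (ZMod 12)).symm (t, h') v.1 = h' v := by
    intro t v
    simp [Equiv.funSplitAt, Equiv.piSplitAt, v.2]
  have hexs : ∀ (t : ZMod 12), (Equiv.funSplitAt (L.c j b) (ZMod 12)).symm (t, h') (L.c j b) = t := by
    intro t
    simp [Equiv.funSplitAt, Equiv.piSplitAt]
  have hEY : ∀ t : ZMod 12, L.E m ((Equiv.funSplitAt (L.c j b) (ZMod 12)).symm (t, h')) =
      E0 - kap t - kap (h' u0) - kap (h' v0) := by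
    intro t
    have hHv := hex t v0
    have hHu := hex t u0
    change (Equiv.funSplitAt (L.c j b) (ZMod 12)).symm (t, h') (L.c (j + 2) b) = h' v0 at hHv
    change (Equiv.funSplitAt (L.c j b) (ZMod 12)).symm (t, h') (L.c (j + 1) b) = h' u0 at hHu
    have e1 : ∑ v : {v : V // v ≠ L.c j b}, (3 + m v.1) *
        kap ((Equiv.funSplitAt (L.c j b) (ZMod 12)).symm (t, h') v.1) =
        ∑ v : {v : V // v ≠ L.c j b}, (3 + m v.1) * kap (h' v) :=
      Finset.sum_congr rfl fun v _ => by rw [hex]
    have e2 : ∑ a : B', ∑ k, kap ((Equiv.funSplitAt (L.c j b) (ZMod 12)).symm (t, h') (L.c k (f a))) =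
        ∑ a : B', ∑ k, kap (h' (L'.c k a)) :=
      Finset.sum_congr rfl fun a _ => Finset.sum_congr rfl fun k _ => by
        rw [← hL', hex]
    rw [L.dg_E_split (j := j) (b := b) R.fi R.fr]
    rw [e1, e2, hexs, hm, hHv, hHu, hE0]
    linear_combination (kap t) * dg_four4
  have hSol : ∀ t : ZMod 12, L.Sol ((Equiv.funSplitAt (L.c j b) (ZMod 12)).symm (t, h')) ↔
      L'.Sol h' ∧ h' v0 = h' u0 + 1 ∧ (t = h' v0 + 1 ∨ t = h' v0 - 2) := by
    intro t
    have hHv := hex t v0
    have hHu := hex t u0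
    change (Equiv.funSplitAt (L.c j b) (ZMod 12)).symm (t, h') (L.c (j + 2) b) = h' v0 at hHv
    change (Equiv.funSplitAt (L.c j b) (ZMod 12)).symm (t, h') (L.c (j + 1) b) = h' u0 at hHu
    have hres : (fun v : {v : V // v ≠ L.c j b} =>
        (Equiv.funSplitAt (L.c j b) (ZMod 12)).symm (t, h') v.1) = h' := funext fun v => hex t v
    rw [R.sol_iff L L' hL', hres, hHv, hHu, hexs]
  by_cases hs : L'.Sol h'
  · rw [if_pos hs, if_pos hs]
    have hEv := hEX v0
    have hEu := hEX u0
    have hvu : h' v0 = h' u0 + 1 ∨ h' v0 = h' u0 - 2 := by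
      have h1 := hs.1 j β
      have c1 : L'.c (j + 1) β = u0 := Subtype.ext (by rw [hL', R.c1 L hβ])
      have c2 : L'.c (j + 2) β = v0 := Subtype.ext (by rw [hL', R.c2 L hβ])
      rwa [c1, c2] at h1
    change _ = epsi (L'.E (fun v => m v.1 + if v.1 = v0.1 then 1 else 0) h') +
      epsi (L'.E (fun v => m v.1 + if v.1 = u0.1 then 1 else 0) h')
    rw [hEv, hEu]
    rcases hvu with h1 | h1
    · have hne : h' v0 + 1 ≠ h' v0 - 2 := by
        generalize h' v0 = x
        revert x
        decide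
      rw [Fintype.sum_eq_add (h' v0 + 1) (h' v0 - 2) hne]
      · rw [if_pos ((hSol _).2 ⟨hs, h1, Or.inl rfl⟩), if_pos ((hSol _).2 ⟨hs, h1, Or.inr rfl⟩),
          hEY, hEY, h1]
        simp only [map_add, map_sub, map_one, dg_kap_two]
        congr 2
        · linear_combination (-(kap (h' u0)) - 1) * dg_four4
        · linear_combination (-(kap (h' u0))) * dg_four4
      · rintro t ⟨ht1, ht2⟩
        rw [if_neg]
        rw [hSol]
        rintro ⟨-, -, ht | ht⟩
        · exact ht1 ht
        · exact ht2 ht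
    · rw [Finset.sum_eq_zero]
      · rw [h1, map_sub, dg_kap_two, add_comm, dg_eps_c1_i]
      · intro t _
        rw [if_neg]
        rw [hSol, h1]
        rintro ⟨-, h2, -⟩
        revert h2
        generalize h' u0 = x
        revert x
        decide
  · rw [if_neg hs, if_neg hs, add_zero]
    exact Finset.sum_eq_zero fun t _ => if_neg fun h => hs ((hSol t).1 h).1

end dg

section theta

theorem thT_sum_i : ∀ i i' : Fin 3, i ≠ i' → ∑ p : ZMod 12 × Fin 3,
    epsi (∑ k : Fin 3, (3 + ((if k = i then 1 else 0) + if k = i' then 1 else 0)) *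
      kap (p.1 + thT p.2 k) - ∑ k : Fin 3, kap (p.1 + thT p.2 k)) = 0 := by
  decide +kernel

variable {X : Web B W} [Fintype B] [Fintype V] [DecidableEq V]

open Classical in
theorem th_S_eq_i (L : Lab X V) (m : V → ZMod 4) :
    L.Si m = ∑ h : V → ZMod 12, if L.Sol h then epsi (L.E m h) else 0 := by
  unfold Lab.Si
  apply Finset.sum_congr _ (fun _ _ => rfl)
  ext x
  simp only [Finset.mem_univ]

theorem S_theta_i (L : Lab X V) (hB : Fintype.card B = 1) {x y : V} (hxy : x ≠ y) :
    L.Si (fun v => (if v = x then 1 else 0) + if v = y then 1 else 0) = 0 := by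
  classical
  obtain ⟨b, hb⟩ := Fintype.card_eq_one_iff.1 hB
  have hW : ∀ w w' : W, w = w' := fun w w' => by
    apply (X.e 0).symm.injective
    rw [hb ((X.e 0).symm w), hb ((X.e 0).symm w')]
  -- the three faces
  let e : Fin 3 ≃ V := Equiv.ofBijective (fun k => L.c k b)
    ⟨fun k k' h => L.cls _ _ _ _ h, fun v => by
      obtain ⟨k, b', h⟩ := L.surj v
      exact ⟨k, by rw [← h, hb b']⟩⟩
  have he : ∀ k, L.c k b = e k := fun k => rfl
  have hec : ∀ k b', L.c k b' = e k := fun k b' => by rw [hb b', he]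
  obtain ⟨i, rfl⟩ := e.surjective x
  obtain ⟨i', rfl⟩ := e.surjective y
  have hii : i ≠ i' := fun h => hxy (by rw [h])
  let φ : ZMod 12 × Fin 3 → (V → ZMod 12) := fun p v => p.1 + thT p.2 (e.symm v)
  have hφe : ∀ p k, φ p (e k) = p.1 + thT p.2 k := fun p k => by
    simp only [φ, Equiv.symm_apply_apply]
  have hφ : Function.Injective φ := by
    rintro ⟨a, t⟩ ⟨a', t'⟩ h
    have h0 : ∀ k, a + thT t k = a' + thT t' k := fun k => by
      rw [← hφe (a, t) k, h, hφe]
    have h1 : a = a' := by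
      have := h0 0
      rwa [thT_zero, thT_zero, add_zero, add_zero] at this
    subst h1
    have h2 : t = t' := thT_inj t t' fun k => add_left_cancel (h0 k)
    rw [h2]
  have hsol : ∀ p, L.Sol (φ p) := by
    intro p
    constructor
    · intro i b'
      rw [hec, hec, hφe, hφe]
      exact thT_valid _ _ _
    · obtain ⟨i, hi⟩ := thT_up p.1 p.2
      have key : ∀ w : W, Relation.EqvGen (L.HE (φ p)) (Sum.inl b) (Sum.inr w) := by
        intro w
        refine Relation.EqvGen.rel _ _ ⟨i, b, ?_, rfl, by rw [hW w]⟩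
        rw [hec, hec, hφe, hφe]
        exact hi
      intro x y
      rcases x with x | x <;> rcases y with y | y
      · rw [hb x, hb y]; exact Relation.EqvGen.refl _
      · rw [hb x]; exact key y
      · rw [hb y]; exact Relation.EqvGen.symm _ _ (key x)
      · rw [hW x y]; exact Relation.EqvGen.refl _
  have hE : ∀ p, L.E (fun v => (if v = e i then 1 else 0) + if v = e i' then 1 else 0) (φ p) =
      ∑ k : Fin 3, (3 + ((if k = i then 1 else 0) + if k = i' then 1 else 0)) *
      kap (p.1 + thT p.2 k) - ∑ k : Fin 3, kap (p.1 + thT p.2 k) := by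
    intro p
    unfold Lab.E
    congr 1
    · rw [← e.sum_comp]
      refine Finset.sum_congr rfl fun k _ => ?_
      rw [hφe]
      simp only [e.injective.eq_iff]
    · rw [Fintype.sum_eq_single b (fun b' h => absurd (hb b') h)]
      refine Finset.sum_congr rfl fun k _ => ?_
      rw [hec, hφe]
  rw [th_S_eq_i]
  refine Eq.trans ?_ (thT_sum_i i i' hii)
  symm
  refine Fintype.sum_of_injective (M := ℤ) φ hφ _ _ ?_ ?_
  · intro h hh
    rw [if_neg]
    rintro ⟨hv, -⟩
    apply hh
    have v0 := hv 0 b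
    have v1 := hv 1 b
    have v2 := hv 2 b
    rw [hec, hec] at v0 v1 v2
    obtain ⟨t, t0, t1, t2⟩ := thT_ex (h (e 0)) (h (e 1)) (h (e 2)) v0 v1 v2
    refine ⟨(h (e 0), t), ?_⟩
    funext v
    obtain ⟨k, rfl⟩ := e.surjective v
    rw [hφe]
    fin_cases k
    · exact t0
    · exact t1
    · exact t2
  · intro p
    rw [if_pos (hsol p), hE]


end theta

end Vale.Agent.P039.Sk
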