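import Vale.Agent.P039.St.ImB

/-! The imaginary part vanishes. -/

namespace Vale.Agent.P039.Sk

variable {B W V B' W' : Type}

namespace PosAux

/-- one of the two terms of the square rule -/
theorem term_step_i {B W V : Type} {X : Web B W} [Fintype B] [Fintype W] [Fintype V]
    [DecidableEq V] {j : Fin 3} {b₁ b₂ : B}
    (Q : Sq4 X j b₁ b₂) (L : Lab X V) (hc : Fintype.card V = Fintype.card B + 2)
    (m : V → ZMod 4) (hm : m (L.c j b₁) = 0) (hp : L.c (j + 1) b₁ ≠ L.c (j + 1) b₂) :
    ∃ (B' W' V' : Type) (_ : Fintype B') (_ : Fintype W') (_ : Fintype V') (_ : DecidableEq V')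
      (X' : Web B' W') (L' : Lab X' V') (π : V → V'),
      Fintype.card B = Fintype.card B' + 2 ∧ Fintype.card V' = Fintype.card B' + 2 ∧
      2 ≤ Fintype.card B' ∧ L.T1i j b₁ b₂ m + L.M1i j b₁ b₂ m = L'.Si (push π m) := by
  classical
  obtain ⟨X', R⟩ := Q.exists_rel
  obtain ⟨L', hL'⟩ := R.exists_lab L hp
  obtain ⟨π, hπ⟩ := m1_eq_push L hp m hm
  obtain ⟨β₁, β₂, hβ, -, -⟩ := R.betas
  refine ⟨{b : B // b ≠ b₁ ∧ b ≠ b₂}, {w : W // w ≠ X.e (j + 2) b₁ ∧ w ≠ X.e (j + 2) b₂},
    L.V1 j b₁ b₂, inferInstance, inferInstance, inferInstance, inferInstance, X', L', π,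
    R.card_B, ?_, ?_, ?_⟩
  · have h1 := R.card_V L hp
    have h2 := R.card_B
    omega
  · exact Fintype.one_lt_card_iff.2 ⟨β₁, β₂, hβ⟩
  · rw [T1_add_M1_i R L hp L' hL' m hm, hπ]

theorem sq_rule_i {B W V : Type} {X : Web B W} [Fintype B] [Fintype W] [Fintype V]
    [DecidableEq V] {j : Fin 3} {b₁ b₂ : B}
    (Q : Sq4 X j b₁ b₂) (L : Lab X V) (hc : Fintype.card V = Fintype.card B + 2)
    (m : V → ZMod 4) (hm : m (L.c j b₁) = 0) (P : ℤ → Prop) (h0 : P 0)
    (hadd : ∀ a b, P a → P b → P (a + b)) (hneg : ∀ a, P a → P (-a))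
    (H : ∀ (B' W' V' : Type) [Fintype B'] [Fintype W'] [Fintype V'] [DecidableEq V']
      (X' : Web B' W') (L' : Lab X' V') (π : V → V'),
      Fintype.card B = Fintype.card B' + 2 → Fintype.card V' = Fintype.card B' + 2 →
      2 ≤ Fintype.card B' → P (L'.Si (push π m))) : P (L.Si m) := by
  have hcW : Fintype.card W = Fintype.card B := (Fintype.card_congr (X.e 0)).symm
  have hcd : Fintype.card V = Fintype.card W + 2 := by omega
  obtain ⟨d0, d1, d2, d3, d4⟩ := Q.dual_c L
  have hmd : m (L.dual.c (-j) (X.e (j + 2) b₁)) = 0 := by rw [d0]; exact hm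
  have hS := S_eq_T1_add_T2_i Q L m
  by_cases hp : L.c (j + 1) b₁ = L.c (j + 1) b₂
  · have hT1 := T1_zero_i Q L hc hp m
    by_cases hq : L.c (j + 2) b₁ = L.c (j + 2) b₂
    · have hT2 := T2_zero_i Q L hc hq m
      rw [hS, hT1, hT2]
      simpa using h0
    · have hpd : L.dual.c (-j + 1) (X.e (j + 2) b₁) ≠ L.dual.c (-j + 1) (X.e (j + 2) b₂) := by
        rw [d1, d2]
        exact fun h => hq h.symm
      have hqd : L.dual.c (-j + 2) (X.e (j + 2) b₁) = L.dual.c (-j + 2) (X.e (j + 2) b₂) := by
        rw [d3, d4]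
        exact hp
      obtain ⟨B', W', V', i1, i2, i3, i4, X', L', π, h1, h2, h3, h4⟩ :=
        term_step_i Q.dual L.dual hcd m hmd hpd
      rw [M1_zero_i Q.dual L.dual hcd hpd hqd m hmd, dual_T1_i Q L m, add_zero] at h4
      have h5 : L.Si m = - L'.Si (push π m) := by
        rw [hS, hT1, ← h4]
        ring
      rw [h5]
      exact hneg _ (H B' W' V' X' L' π (by omega) h2 h3)
  · obtain ⟨B', W', V', i1, i2, i3, i4, X', L', π, h1, h2, h3, h4⟩ :=
      term_step_i Q L hc m hm hp
    by_cases hq : L.c (j + 2) b₁ = L.c (j + 2) b₂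
    · rw [M1_zero_i Q L hc hp hq m hm] at h4
      rw [hS, T2_zero_i Q L hc hq m, h4]
      exact H B' W' V' X' L' π h1 h2 h3
    · have hpd : L.dual.c (-j + 1) (X.e (j + 2) b₁) ≠ L.dual.c (-j + 1) (X.e (j + 2) b₂) := by
        rw [d1, d2]
        exact fun h => hq h.symm
      obtain ⟨B'', W'', V'', i1', i2', i3', i4', X'', L'', π', h1', h2', h3', h4'⟩ :=
        term_step_i Q.dual L.dual hcd m hmd hpd
      rw [dual_T1_i Q L m, dual_M1_i Q L m] at h4'
      have : L.Si m = L'.Si (push π m) + - L''.Si (push π' m) := by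
        rw [hS, ← h4, ← h4']
        ring
      rw [this]
      exact hadd _ _ (H B' W' V' X' L' π h1 h2 h3)
        (hneg _ (H B'' W'' V'' X'' L'' π' (by omega) h2' h3'))

section choose

variable {X : Web B W} [Fintype B] [Fintype V] [DecidableEq V]

/-- an unmarked digon kills the sum -/
theorem S_of_unmarked_i (L : Lab X V) (hN : 2 ≤ Fintype.card B) (m : V → ZMod 4) {v : V}
    (hv : deg L v = 1) (hm : m v = 0) : L.Si m = 0 := by
  obtain ⟨k, b, hb, hd⟩ := deg_one L hv
  refine S_digon_i (j := k) (b := b) L m (by rw [hb]; exact hm) (fun b' h => digon_unique L hd h)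
    (exists_other hN b)

end choose

theorem double_aux_i (n : ℕ) : ∀ {B W V : Type} {X : Web B W} [Fintype B] [Fintype W] [Fintype V]
    [DecidableEq V] (L : Lab X V), Fintype.card B = n → Fintype.card V = Fintype.card B + 2 →
    2 ≤ Fintype.card B → ∀ x : V, L.Si (fun v => if v = x then 2 else 0) = 0 := by
  induction n using Nat.strong_induction_on with
  | _ n ih =>
    intro B W V X _ _ _ _ L hn hc hN x
    by_cases hU : ∃ v, v ≠ x ∧ deg L v = 1
    · obtain ⟨v, hv, hd⟩ := hU
      exact S_of_unmarked_i L hN _ hd (by simp [hv])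
    · push Not at hU
      have h2 : ∀ v, v ≠ x → 2 ≤ deg L v := by
        intro v hv
        have h3 := hU v hv
        have h4 := deg_pos L v
        omega
      obtain ⟨k, b₁, b₂, hF, Q⟩ := exists_sq4 L (x := x) _ (card_F1 L hc x h2)
        (fun v hv => (Finset.mem_filter.1 hv).2.2) (by
          intro k b hd
          by_contra hne
          exact hU _ hne (deg_of_digon L hd))
      have hsx : L.c k b₁ ≠ x := (Finset.mem_filter.1 hF).2.1
      refine sq_rule_i Q L hc _ (by simp [hsx]) (fun a => a = 0) rfl
        (by rintro a b rfl rfl; rfl) (by rintro a rfl; rfl) ?_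
      intro B' W' V' _ _ _ _ X' L' π h1 h2 h3
      rw [push_single]
      exact ih (Fintype.card B') (by omega) L' rfl h2 h3 (π x)

theorem nonneg_aux_i (n : ℕ) : ∀ {B W V : Type} {X : Web B W} [Fintype B] [Fintype W] [Fintype V]
    [DecidableEq V] (L : Lab X V), Fintype.card B = n → Fintype.card V = Fintype.card B + 2 →
    ∀ x y : V, x ≠ y →
    L.Si (fun v => (if v = x then 1 else 0) + if v = y then 1 else 0) = 0 := by
  induction n using Nat.strong_induction_on with
  | _ n ih =>
    intro B W V X _ _ _ _ L hn hc x y hxy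
    have hpos : 1 ≤ Fintype.card B := by
      obtain ⟨-, b, -⟩ := L.surj x
      exact Fintype.card_pos_iff.2 ⟨b⟩
    rcases Nat.lt_or_ge 1 (Fintype.card B) with hN | hN
    swap
    · rw [S_theta_i L (by omega) hxy]
    have hN : 2 ≤ Fintype.card B := hN
    by_cases hU : ∃ v, (v ≠ x ∧ v ≠ y) ∧ deg L v = 1
    · obtain ⟨v, ⟨hv, hw⟩, hd⟩ := hU
      exact S_of_unmarked_i L hN _ hd (by simp [hv, hw])
    push Not at hU
    have h2 : ∀ v, v ≠ x → v ≠ y → 2 ≤ deg L v := by
      intro v hv hw
      have h3 := hU v ⟨hv, hw⟩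
      have h4 := deg_pos L v
      omega
    -- marks at different or equal faces of a web with at least two black vertices
    have main : ∀ {B' W' V' : Type} [Fintype B'] [Fintype W'] [Fintype V'] [DecidableEq V']
        {X' : Web B' W'} (L' : Lab X' V'), Fintype.card B' < n →
        Fintype.card V' = Fintype.card B' + 2 → ∀ x' y' : V', (x' = y' → 2 ≤ Fintype.card B') →
        L'.Si (fun v => (if v = x' then 1 else 0) + if v = y' then 1 else 0) = 0 := by
      intro B' W' V' _ _ _ _ X' L' hlt hc' x' y' h
      by_cases he : x' = y'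
      · subst he
        have h3 : (fun v : V' => ((if v = x' then (1 : ZMod 4) else 0) +
            if v = x' then (1 : ZMod 4) else 0)) = fun v => if v = x' then 2 else 0 := by
          ext v
          split_ifs
          · decide
          · simp
        rw [h3, double_aux_i _ L' rfl hc' (h rfl) x']
      · exact ih _ hlt L' rfl hc' x' y' he
    -- a marked digon
    have dig : ∀ x y : V, x ≠ y → (∀ v, v ≠ x → v ≠ y → 2 ≤ deg L v) → deg L x = 1 →
        L.Si (fun v => (if v = x then 1 else 0) + if v = y then 1 else 0) = 0 := by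
      intro x y hxy h2 hx
      classical
      obtain ⟨k, b, hb, hd⟩ := deg_one L hx
      by_cases hiso : X.e k b = X.e (k + 2) b
      · exact (S_isolated_i (j := k) (b := b) L _ (hd.trans hiso.symm) hiso.symm
          (exists_other hN b))
      obtain ⟨X', R⟩ := exists_dg hd hiso
      obtain ⟨L', hL'⟩ := R.exists_lab L
      have hyx : y ≠ L.c k b := by rw [hb]; exact hxy.symm
      rw [S_digon_marked_i R L L' hL' _ (by simp [hb, hxy])]
      have hcard := R.card_B
      have hcardV := DgRel.card_V (j := k) (b := b) L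
      have hterm : ∀ u : V, u ≠ L.c k b → (u = y → ∃ i, i ≠ k ∧ L.c i b = y ∧
          (X.e (i + 1) b = X.e (i + 2) b → X.e k b = X.e (k + 2) b)) →
          L'.Si (fun v => ((if v.1 = x then 1 else 0) + if v.1 = y then 1 else 0) +
            if v.1 = u then 1 else 0) = 0 := by
        intro u hu huy
        have h3 : (fun v : {v : V // v ≠ L.c k b} => (((if v.1 = x then (1 : ZMod 4) else 0) +
            if v.1 = y then (1 : ZMod 4) else 0) + if v.1 = u then (1 : ZMod 4) else 0)) =
            fun v => (if v = ⟨y, hyx⟩ then (1 : ZMod 4) else 0) +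
              if v = ⟨u, hu⟩ then (1 : ZMod 4) else 0 := by
          ext v
          have h4 : v.1 ≠ x := by
            rw [← hb]
            exact v.2
          rw [if_neg h4, zero_add]
          simp only [Subtype.ext_iff]
        rw [h3]
        refine main L' (by omega) (by omega) _ _ ?_
        intro he
        have hyu : y = u := congrArg Subtype.val he
        obtain ⟨i, hi, hi1, hi2⟩ := huy hyu.symm
        by_contra hlt
        have hB2 : Fintype.card B = 2 := by omega
        have hdy := deg_y L hc hB2 hxy h2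
        obtain ⟨k', b', hb', hd'⟩ := deg_one L hdy
        have h5 : L.c i b = L.c k' b' := hi1.trans hb'.symm
        have h6 : i = k' := L.cls _ _ _ _ h5
        subst h6
        have h7 : b = b' := digon_unique L hd' h5
        subst h7
        exact hiso (hi2 hd')
      refine (congrArg₂ (· + ·) (hterm (L.c (k + 2) b) ?_ ?_)
        (hterm (L.c (k + 1) b) ?_ ?_)).trans (add_zero 0)
      · exact fun h => fne2 k (L.cls _ _ _ _ h)
      · intro h
        refine ⟨k + 2, fne2 k, h, ?_⟩
        rw [f21, f22]
        intro h'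
        exact h'.trans hd
      · exact fun h => fne1 k (L.cls _ _ _ _ h)
      · intro h
        refine ⟨k + 1, fne1 k, h, ?_⟩
        rw [f11, f12]
        intro h'
        exact h'.symm
    by_cases hx : deg L x = 1
    · exact dig x y hxy h2 hx
    by_cases hy : deg L y = 1
    · have h3 := dig y x hxy.symm (fun v hv hw => h2 v hw hv) hy
      have h4 : (fun v : V => (if v = y then (1 : ZMod 4) else 0) +
          if v = x then (1 : ZMod 4) else 0) = fun v => (if v = x then 1 else 0) +
          if v = y then 1 else 0 := by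
        ext v
        rw [add_comm]
      rw [h4] at h3
      exact h3
    -- no digons
    have h2' : ∀ v, 2 ≤ deg L v := by
      intro v
      have h4 := deg_pos L v
      by_cases hv : v = x
      · subst hv
        omega
      · by_cases hw : v = y
        · subst hw
          omega
        · exact h2 v hv hw
    obtain ⟨k, b₁, b₂, hF, Q⟩ := exists_sq4 L (x := x) _ (card_F2 L hc x y h2')
      (fun v hv => (Finset.mem_filter.1 hv).2.2) (by
        intro k b hd
        have h3 := deg_of_digon L hd
        have h4 := h2' (L.c k b)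
        omega)
    have hs := (Finset.mem_filter.1 hF).2.1
    refine sq_rule_i Q L hc _ (by simp [hs.1, hs.2]) (fun a => a = 0) rfl
      (by rintro a b rfl rfl; rfl) (by rintro a rfl; rfl) ?_
    intro B' W' V' _ _ _ _ X' L' π h1 h2 h3
    rw [push_add, push_single, push_single]
    exact main L' (by omega) h2 (π x) (π y) (fun _ => h3)

end PosAux

open PosAux

variable {X : Web B W} [Fintype B] [Fintype W] [Fintype V] [DecidableEq V]

/-- the imaginary part of the sum for two marks is zero -/
theorem Si_zero (L : Lab X V) (hc : Fintype.card V = Fintype.card B + 2)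
    (hN : 2 ≤ Fintype.card B) (x y : V) :
    L.Si (fun v => (if v = x then 1 else 0) + if v = y then 1 else 0) = 0 := by
  by_cases h : x = y
  · subst h
    have h3 : (fun v : V => ((if v = x then (1 : ZMod 4) else 0) +
        if v = x then (1 : ZMod 4) else 0)) = fun v => if v = x then 2 else 0 := by
      ext v
      split_ifs
      · decide
      · simp
    rw [h3]
    exact double_aux_i _ L rfl hc hN x
  · exact nonneg_aux_i _ L rfl hc x y h

end Vale.Agent.P039.Sk
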